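import Mathlib

/-!
# Circulant Hadamard matrices: the basic polynomial identity
-/

namespace Vale.Agent.P033.CH

open Polynomial Finset

variable {n : ℕ}

/-- The polynomial `∑_{j<n} h_j X^j`. -/
noncomputable def HP (h : ZMod n → ℤ) : ℤ[X] :=
  ∑ j ∈ range n, C (h (j : ZMod n)) * X ^ j

/-- The polynomial `∑_{j<n} h_j X^(n-j)`. -/
noncomputable def HQ (h : ZMod n → ℤ) : ℤ[X] :=
  ∑ j ∈ range n, C (h (j : ZMod n)) * X ^ (n - j)

theorem sum_range_eq_sum_zmod [NeZero n] {S : Type*} [AddCommMonoid S] (f : ZMod n → S) :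
    ∑ j ∈ range n, f (j : ZMod n) = ∑ a : ZMod n, f a := by
  refine Finset.sum_nbij' (fun j => (j : ZMod n)) (fun a => a.val) ?_ ?_ ?_ ?_ ?_
  · intro j _; exact Finset.mem_univ _
  · intro a _; exact Finset.mem_range.mpr (ZMod.val_lt a)
  · intro j hj
    exact ZMod.val_cast_of_lt (Finset.mem_range.mp hj)
  · intro a _
    exact ZMod.natCast_zmod_val a
  · intro j _; rfl

/-- In every commutative ring, evaluation of `HP * HQ` at an `n`-th root of unity is `n`. -/
theorem aeval_HP_mul_HQ [NeZero n] (h : ZMod n → ℤ) (h1 : ∀ i, h i = 1 ∨ h i = -1)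
    (hac : ∀ t : ZMod n, t ≠ 0 → ∑ j, h j * h (j + t) = 0)
    {S : Type*} [CommRing S] (γ : S) (hγ : γ ^ n = 1) :
    aeval γ (HP h) * aeval γ (HQ h) = (n : S) := by
  classical
  have hnpos : 0 < n := Nat.pos_of_ne_zero (NeZero.ne n)
  -- the character
  set ψ : ZMod n → S := fun a => γ ^ a.val with hψ
  have hmod : ∀ m : ℕ, γ ^ m = ψ (m : ZMod n) := by
    intro m
    simp only [hψ, ZMod.val_natCast]
    conv_lhs => rw [← Nat.div_add_mod m n]
    rw [pow_add, pow_mul, hγ, one_pow, one_mul]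
  have hadd : ∀ a b : ZMod n, ψ (a + b) = ψ a * ψ b := by
    intro a b
    have : ((a.val + b.val : ℕ) : ZMod n) = a + b := by
      push_cast
      rw [ZMod.natCast_zmod_val, ZMod.natCast_zmod_val]
    rw [← this, ← hmod, pow_add]
  have hzero : ψ 0 = 1 := by simp [hψ]
  have hP : aeval γ (HP h) = ∑ a : ZMod n, (h a : S) * ψ a := by
    unfold HP
    rw [map_sum, ← sum_range_eq_sum_zmod (fun a => (h a : S) * ψ a)]
    refine Finset.sum_congr rfl ?_
    intro j _
    simp [← hmod]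
  have hQ : aeval γ (HQ h) = ∑ a : ZMod n, (h a : S) * ψ (-a) := by
    unfold HQ
    rw [map_sum, ← sum_range_eq_sum_zmod (fun a => (h a : S) * ψ (-a))]
    refine Finset.sum_congr rfl ?_
    intro j hj
    have hj' : j ≤ n := (Finset.mem_range.mp hj).le
    have : ((n - j : ℕ) : ZMod n) = -(j : ZMod n) := by
      rw [Nat.cast_sub hj']; simp
    simp [← this, ← hmod]
  rw [hP, hQ, Finset.sum_mul_sum]
  -- `∑ a b, h a h b ψ(a-b)`
  have step : ∀ a : ZMod n, ∑ b : ZMod n, ((h a : S) * ψ a) * ((h b : S) * ψ (-b))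
      = ∑ t : ZMod n, ((h (a + t) * h a : ℤ) : S) * ψ (-t) := by
    intro a
    rw [← Equiv.sum_comp (Equiv.addLeft a)]
    refine Finset.sum_congr rfl ?_
    intro t _
    simp only [Equiv.coe_addLeft]
    have : ψ a * ψ (-(a + t)) = ψ (-t) := by
      rw [← hadd]; congr 1; ring
    push_cast
    rw [← this]; ring
  simp_rw [step]
  rw [Finset.sum_comm]
  have step2 : ∀ t : ZMod n, ∑ a : ZMod n, ((h (a + t) * h a : ℤ) : S) * ψ (-t)
      = if t = 0 then (n : S) else 0 := by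
    intro t
    rw [← Finset.sum_mul, ← Int.cast_sum]
    split_ifs with ht
    · subst ht
      have : ∀ a : ZMod n, h (a + 0) * h a = 1 := by
        intro a; rcases h1 a with e | e <;> simp [e]
      simp only [this]
      simp [hzero, ZMod.card]
    · have := hac t ht
      have h2 : ∑ a : ZMod n, h (a + t) * h a = 0 := by
        rw [← this]; exact Finset.sum_congr rfl (fun _ _ => mul_comm _ _)
      rw [h2]; simp
  simp_rw [step2]
  simp

theorem aeval_eq_ringHom {S : Type*} [CommRing S] (f : ℤ[X] →+* S) (p : ℤ[X]) :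
    aeval (f X) p = f p := by
  have : ((aeval (f X) : ℤ[X] →ₐ[ℤ] S) : ℤ[X] →+* S) = f := by
    refine Polynomial.ringHom_ext' (Subsingleton.elim _ _) ?_
    simp
  exact RingHom.congr_fun this p

/-- `X^n - 1` divides `HP * HQ - n` in `ℤ[X]`. -/
theorem dvd_HP_mul_HQ_sub [NeZero n] (h : ZMod n → ℤ) (h1 : ∀ i, h i = 1 ∨ h i = -1)
    (hac : ∀ t : ZMod n, t ≠ 0 → ∑ j, h j * h (j + t) = 0) :
    (X ^ n - 1 : ℤ[X]) ∣ HP h * HQ h - (n : ℤ[X]) := by
  have key := aeval_HP_mul_HQ h h1 hac (S := AdjoinRoot (X ^ n - 1 : ℤ[X]))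
    (AdjoinRoot.mk (X ^ n - 1 : ℤ[X]) X) (by
      rw [← map_pow, ← sub_eq_zero, ← map_one (AdjoinRoot.mk (X ^ n - 1 : ℤ[X])), ← map_sub,
        AdjoinRoot.mk_self])
  rw [← AdjoinRoot.mk_eq_zero, map_sub, map_mul, map_natCast]
  rw [aeval_eq_ringHom, aeval_eq_ringHom] at key
  rw [key]; simp

end Vale.Agent.P033.CH
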