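import Vale.Agent.P033.CH.Tower

/-!
# Coefficients in the group ring
-/

namespace Vale.Agent.P033.CH

open Finset

variable {M : ℕ}

theorem lam_ext {z w : Lam M} (h : ∀ x, z.coeff x = w.coeff x) : z = w := by
  apply AddMonoidAlgebra.coeff_injective
  exact Finsupp.ext h

theorem coeff_gr_mul (a x : ZMod M) (z : Lam M) : (gr a * z).coeff x = z.coeff (x - a) := by
  unfold gr
  rw [AddMonoidAlgebra.coeff_single_mul_apply, one_mul]
  congr 1; ring

theorem coeff_nat_mul (k : ℕ) (z : Lam M) (x : ZMod M) :
    ((k : Lam M) * z).coeff x = (k : ℤ) * z.coeff x := by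
  rw [← nsmul_eq_mul, AddMonoidAlgebra.coeff_smul]
  simp

theorem coeff_two_mul (z : Lam M) (x : ZMod M) :
    ((2 : Lam M) * z).coeff x = 2 * z.coeff x := by
  have := coeff_nat_mul 2 z x
  simpa using this

theorem coeff_mulMap [NeZero M] (y x : ZMod M) (z : Lam M) :
    (mulMap y z).coeff x = ∑ w : ZMod M, if y * w = x then z.coeff w else 0 := by
  classical
  induction z using AddMonoidAlgebra.induction_linear with
  | zero => simp
  | add a b ha hb =>
    rw [map_add, AddMonoidAlgebra.coeff_add, Finsupp.add_apply, ha, hb, ← Finset.sum_add_distrib]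
    refine Finset.sum_congr rfl ?_
    intro w _
    split_ifs <;> simp
  | single a c =>
    rw [mulMap_single, AddMonoidAlgebra.coeff_single, AddMonoidAlgebra.coeff_single,
      Finsupp.single_apply]
    rw [Finset.sum_eq_single a]
    · simp
    · intro b _ hb
      rw [Finsupp.single_apply, if_neg (Ne.symm hb)]; simp
    · intro h; exact absurd (Finset.mem_univ a) h

theorem coeff_mulMap_neg_one [NeZero M] (x : ZMod M) (z : Lam M) :
    (mulMap (-1) z).coeff x = z.coeff (-x) := by
  rw [coeff_mulMap, Finset.sum_eq_single (-x)]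
  · simp
  · intro b _ hb
    rw [if_neg]
    intro h
    exact hb (by rw [← h]; ring)
  · intro h; exact absurd (Finset.mem_univ _) h

theorem coeff_mul_eq [NeZero M] (x : ZMod M) (z w : Lam M) :
    (z * w).coeff x = ∑ a : ZMod M, z.coeff a * w.coeff (x - a) := by
  classical
  induction z using AddMonoidAlgebra.induction_linear with
  | zero => simp
  | add a b ha hb =>
    rw [add_mul, AddMonoidAlgebra.coeff_add, Finsupp.add_apply, ha, hb, ← Finset.sum_add_distrib]
    refine Finset.sum_congr rfl ?_
    intro w _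
    rw [AddMonoidAlgebra.coeff_add, Finsupp.add_apply]; ring
  | single a c =>
    rw [AddMonoidAlgebra.coeff_single_mul_apply]
    rw [Finset.sum_eq_single a]
    · rw [AddMonoidAlgebra.coeff_single, Finsupp.single_apply, if_pos rfl]
      congr 2; ring
    · intro b _ hb
      rw [AddMonoidAlgebra.coeff_single, Finsupp.single_apply, if_neg (Ne.symm hb), zero_mul]
    · intro h; exact absurd (Finset.mem_univ a) h

theorem coeff_norm [NeZero M] (z : Lam M) :
    (z * mulMap (-1) z).coeff 0 = ∑ a : ZMod M, (z.coeff a) ^ 2 := by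
  rw [coeff_mul_eq]
  refine Finset.sum_congr rfl ?_
  intro a _
  rw [coeff_mulMap_neg_one]
  rw [show -(0 - a) = a by ring]; ring

theorem two_dvd_iff [NeZero M] (z : Lam M) :
    (2 : Lam M) ∣ z ↔ ∀ x, (2 : ℤ) ∣ z.coeff x := by
  constructor
  · rintro ⟨Z, rfl⟩ x
    rw [coeff_two_mul]; exact Dvd.intro _ rfl
  · intro h
    choose c hc using h
    refine ⟨AddMonoidAlgebra.ofCoeff (Finsupp.equivFunOnFinite.symm c), ?_⟩
    apply lam_ext
    intro x
    rw [coeff_two_mul, hc x]
    simp

end Vale.Agent.P033.CH
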