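import Vale.Agent.P033.CH.Two

/-!
# Two contradictions modulo 2
-/

namespace Vale.Agent.P033.CH

open Finset

variable {M : ℕ}

theorem two_dvd_of_odd_mul [NeZero M] {k : ℕ} (hk : Odd k) {z : Lam M}
    (h : (2 : Lam M) ∣ (k : Lam M) * z) : (2 : Lam M) ∣ z := by
  obtain ⟨a, ha⟩ := hk
  obtain ⟨Z, hZ⟩ := h
  refine ⟨Z - a * z, ?_⟩
  rw [ha] at hZ
  push_cast at hZ
  linear_combination hZ

theorem strip_one [NeZero M] {P : Finset ℕ} {e : ℕ → ZMod M} (hI : Idem M P e) {p : ℕ}
    (hp : p ∈ P) {w : Lam M} (hw : mulMap (e p) w = w)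
    (h : (2 : Lam M) ∣ w * ((p : Lam M) - Np e p)) : (2 : Lam M) ∣ w := by
  classical
  -- multiply by `1 - t`
  have h1 : gr (1 - e p) * Np e p = Np e p := gr_mul_sum (hI.mulp p hp)
  have h2 : (2 : Lam M) ∣ (p : Lam M) * (w - gr (1 - e p) * w) := by
    have h3 : w * ((p : Lam M) - Np e p) * (1 - gr (1 - e p))
        = (p : Lam M) * (w - gr (1 - e p) * w) := by
      linear_combination w * h1
    rw [← h3]
    exact h.mul_right _
  have h3 := two_dvd_of_odd_mul (hI.odd p hp) h2
  rw [two_dvd_iff] at h3 ⊢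
  intro x
  by_cases hx : e p * x = x
  · have h4 := h3 x
    rw [AddMonoidAlgebra.coeff_sub, Finsupp.sub_apply, coeff_gr_mul] at h4
    have h5 : w.coeff (x - (1 - e p)) = 0 := by
      rw [← hw, coeff_mulMap]
      apply Finset.sum_eq_zero
      intro y _
      rw [if_neg]
      intro hy
      have h6 : e p * (x - (1 - e p)) = x - (1 - e p) := by
        rw [← hy, ← mul_assoc, hI.idem p hp]
      apply hI.ne_one p hp
      linear_combination -h6 + hx + hI.idem p hp
    rw [h5, sub_zero] at h4
    exact h4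
  · have h5 : w.coeff x = 0 := by
      rw [← hw, coeff_mulMap]
      apply Finset.sum_eq_zero
      intro y _
      rw [if_neg]
      intro hy
      apply hx
      rw [← hy, ← mul_assoc, hI.idem p hp]
    rw [h5]; exact dvd_zero _

theorem mulMap_Np {P : Finset ℕ} {e : ℕ → ZMod M} (hI : Idem M P e) {p q : ℕ}
    (hp : p ∈ P) (hq : q ∈ P) (hpq : q ≠ p) : mulMap (e p) (Np e q) = Np e q := by
  unfold Np
  rw [map_sum]
  refine Finset.sum_congr rfl ?_
  intro i _
  rw [mulMap_gr]
  congr 1
  linear_combination (i : ZMod M) * hI.cross q hq p hp hpq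

theorem strip_all [NeZero M] {P : Finset ℕ} {e : ℕ → ZMod M} (hI : Idem M P e)
    {z : Lam M} (hz : ∀ p ∈ P, mulMap (e p) z = z) (S : Finset ℕ) (hS : S ⊆ P)
    (h : (2 : Lam M) ∣ z * Phi e S) : (2 : Lam M) ∣ z := by
  classical
  induction S using Finset.induction_on with
  | empty => simpa [Phi] using h
  | insert a s ha ih =>
    have haP : a ∈ P := hS (Finset.mem_insert_self a s)
    have hsP : s ⊆ P := fun x hx => hS (Finset.mem_insert_of_mem hx)
    apply ih hsP
    apply strip_one hI haP
    · rw [map_mul, hz a haP]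
      congr 1
      unfold Phi
      rw [map_prod]
      refine Finset.prod_congr rfl ?_
      intro q hq
      rw [map_sub, map_natCast, mulMap_Np hI haP (hsP hq) (fun h => ha (h ▸ hq))]
    · have : Phi e (insert a s) = ((a : Lam M) - Np e a) * Phi e s := by
        unfold Phi; rw [Finset.prod_insert ha]
      rw [this] at h
      rw [mul_assoc, mul_comm (Phi e s)]
      exact h

theorem mulMap_J (y x : ZMod M) (n : ℕ) : mulMap y (J n x) = J n (y * x) := by
  unfold J
  rw [map_sum]
  refine Finset.sum_congr rfl ?_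
  intro i _
  rw [mulMap_gr]
  congr 1; ring

theorem J_four {x : ZMod M} (h4 : 4 * x = 0) (m : ℕ) :
    J (4 * m) x = (m : Lam M) * J 4 x := by
  induction m with
  | zero => simp [J]
  | succ m ih =>
    have h5 : (4 : ZMod M) * m * x = 0 := by linear_combination (m : ZMod M) * h4
    have e1 : J (4 * (m + 1)) x = J (4 * m) x + J 4 x := by
      have hr : 4 * (m + 1) = 4 * m + 1 + 1 + 1 + 1 := by ring
      unfold J
      rw [hr, Finset.sum_range_succ, Finset.sum_range_succ, Finset.sum_range_succ,
        Finset.sum_range_succ, Finset.sum_range_succ, Finset.sum_range_succ,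
        Finset.sum_range_succ, Finset.sum_range_one]
      push_cast
      rw [show (4 : ZMod M) * m * x = 0 * x by rw [h5]; ring,
        show ((4 : ZMod M) * m + 1) * x = 1 * x by linear_combination h5,
        show ((4 : ZMod M) * m + 2) * x = 2 * x by linear_combination h5,
        show ((4 : ZMod M) * m + 3) * x = 3 * x by linear_combination h5]
      ring
    rw [e1, ih]; push_cast; ring

theorem coeff_gr (a x : ZMod M) : (gr a).coeff x = if a = x then 1 else 0 := by
  classical
  unfold gr
  rw [AddMonoidAlgebra.coeff_single, Finsupp.single_apply]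

theorem coeff_J_four {x : ZMod M} (h4 : 4 * x = 0) (h2 : 2 * x ≠ 0) :
    (J 4 x : Lam M).coeff 0 = 1 := by
  have h1 : x ≠ 0 := by rintro rfl; simp at h2
  have h3 : 3 * x ≠ 0 := by
    intro h; apply h1; linear_combination h4 - h
  unfold J
  rw [Finset.sum_range_succ, Finset.sum_range_succ, Finset.sum_range_succ, Finset.sum_range_one]
  simp only [AddMonoidAlgebra.coeff_add, Finsupp.add_apply, coeff_gr]
  push_cast
  rw [if_pos (by ring), if_neg (by simpa using h1), if_neg h2, if_neg h3]
  norm_num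

/-- `J(x) φ` is not divisible by two, for `x` of order 4 fixed by all the idempotents. -/
theorem J_not [NeZero M] {P : Finset ℕ} {e : ℕ → ZMod M} (hI : Idem M P e) {m : ℕ} (hm : Odd m)
    {x : ZMod M} (h4 : 4 * x = 0) (h2 : 2 * x ≠ 0) (hx : ∀ p ∈ P, e p * x = x) :
    ¬ (2 : Lam M) ∣ J (4 * m) x * Phi e P := by
  intro h
  have h1 := strip_all hI (z := J (4 * m) x)
    (fun p hp => by rw [mulMap_J, hx p hp]) P (Finset.Subset.refl P) h
  rw [J_four h4] at h1
  have h3 := two_dvd_of_odd_mul hm h1
  rw [two_dvd_iff] at h3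
  have := h3 0
  rw [coeff_J_four h4 h2] at this
  omega

/-- The final contradiction. -/
theorem final_contra [NeZero M] {P : Finset ℕ} {e : ℕ → ZMod M} (hP : P.Nonempty) {c : ZMod M} (h4 : 4 * c = 0) (h2 : 2 * c ≠ 0)
    (hfix : ∀ p ∈ P, e p * c = c) (η : Lam M)
    (hn : η * mulMap (-1) η = 4) (hid : ∀ p ∈ P, mulMap (e p) η = 2)
    (hc : (2 : Lam M) ∣ (gr c - 1) * η) (hnot : ¬ (2 : Lam M) ∣ η) : False := by
  classical
  have hc0 : c ≠ 0 := by rintro rfl; simp at h2
  have h3c : 3 * c ≠ 0 := by
    intro h; apply hc0; linear_combination h4 - h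
  -- sum of squares
  have hsq : ∑ a : ZMod M, (η.coeff a) ^ 2 = 4 := by
    rw [← coeff_norm, hn]
    have : (4 : Lam M) = ((4 : ℕ) : Lam M) := by norm_num
    rw [this, AddMonoidAlgebra.coeff_natCast]
    simp
  -- the odd set is closed under adding `c`
  have hclosed : ∀ x, (2 : ℤ) ∣ η.coeff (x - c) - η.coeff x := by
    intro x
    have := (two_dvd_iff _).mp hc x
    rw [sub_mul, one_mul, AddMonoidAlgebra.coeff_sub, Finsupp.sub_apply, coeff_gr_mul] at this
    exact this
  -- an odd coefficient
  obtain ⟨g, hg⟩ : ∃ g, ¬ (2 : ℤ) ∣ η.coeff g := by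
    by_contra hcon
    push Not at hcon
    exact hnot ((two_dvd_iff _).mpr hcon)
  have hg1 : ¬ (2 : ℤ) ∣ η.coeff (g - c) := by
    intro h; exact hg ((dvd_sub_right h).mp (hclosed g))
  have hg2 : ¬ (2 : ℤ) ∣ η.coeff (g - c - c) := by
    intro h; exact hg1 ((dvd_sub_right h).mp (hclosed (g - c)))
  have hg3 : ¬ (2 : ℤ) ∣ η.coeff (g - c - c - c) := by
    intro h; exact hg2 ((dvd_sub_right h).mp (hclosed (g - c - c)))
  -- the four points
  let T : Finset (ZMod M) := {g, g - c, g - c - c, g - c - c - c}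
  have hsqodd : ∀ y : ZMod M, ¬ (2 : ℤ) ∣ η.coeff y → 1 ≤ (η.coeff y) ^ 2 := by
    intro y hy
    have : η.coeff y ≠ 0 := by intro h; rw [h] at hy; exact hy (dvd_zero _)
    have := pow_pos (abs_pos.mpr this) 2
    rw [sq_abs] at this
    omega
  have hTodd : ∀ y ∈ T, ¬ (2 : ℤ) ∣ η.coeff y := by
    intro y hy
    simp only [T, Finset.mem_insert, Finset.mem_singleton] at hy
    rcases hy with h | h | h | h <;> rw [h] <;> assumption
  have hTcard : T.card = 4 := by
    have n1 : g ≠ g - c := fun h => hc0 (by linear_combination h)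
    have n2 : g ≠ g - c - c := fun h => h2 (by linear_combination h)
    have n3 : g ≠ g - c - c - c := fun h => h3c (by linear_combination h)
    have n4 : g - c ≠ g - c - c := fun h => hc0 (by linear_combination h)
    have n5 : g - c ≠ g - c - c - c := fun h => h2 (by linear_combination h)
    have n6 : g - c - c ≠ g - c - c - c := fun h => hc0 (by linear_combination h)
    simp only [T]
    rw [Finset.card_insert_of_notMem, Finset.card_insert_of_notMem,
      Finset.card_insert_of_notMem, Finset.card_singleton]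
    · simp [n6]
    · simp [n4, n5]
    · simp [n1, n2, n3]
  have hout : ∀ y, y ∉ T → η.coeff y = 0 := by
    have h5 : ∑ a ∈ T, (η.coeff a) ^ 2 + ∑ a ∈ Tᶜ, (η.coeff a) ^ 2 = 4 := by
      rw [Finset.sum_add_sum_compl, hsq]
    have h6 : (4 : ℤ) ≤ ∑ a ∈ T, (η.coeff a) ^ 2 := by
      have : ∑ a ∈ T, (1 : ℤ) ≤ ∑ a ∈ T, (η.coeff a) ^ 2 :=
        Finset.sum_le_sum (fun y hy => hsqodd y (hTodd y hy))
      rw [Finset.sum_const, hTcard] at this
      simpa using this
    have h7 : ∑ a ∈ Tᶜ, (η.coeff a) ^ 2 ≤ 0 := by linarith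
    intro y hy
    have h8 : (η.coeff y) ^ 2 ≤ ∑ a ∈ Tᶜ, (η.coeff a) ^ 2 :=
      Finset.single_le_sum (f := fun a => (η.coeff a) ^ 2) (fun a _ => sq_nonneg _)
        (Finset.mem_compl.mpr hy)
    have h9 : (η.coeff y) ^ 2 = 0 := le_antisymm (h8.trans h7) (sq_nonneg _)
    exact pow_eq_zero_iff (two_ne_zero) |>.mp h9
  obtain ⟨p, hp⟩ := hP
  have hcoef : (mulMap (e p) η).coeff (e p * g) = η.coeff g := by
    rw [coeff_mulMap, Finset.sum_eq_single g]
    · rw [if_pos rfl]
    · intro y _ hy
      split_ifs with h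
      · apply hout
        intro hyT
        simp only [T, Finset.mem_insert, Finset.mem_singleton] at hyT
        have hf := hfix p hp
        rcases hyT with h' | h' | h' | h'
        · exact hy h'
        · rw [h'] at h; apply hc0; linear_combination -h - hf
        · rw [h'] at h; apply h2; linear_combination -h - 2 * hf
        · rw [h'] at h; apply h3c; linear_combination -h - 3 * hf
      · rfl
    · intro h; exact absurd (Finset.mem_univ _) h
  apply hg
  rw [← hcoef, hid p hp]
  have : (2 : Lam M) ∣ 2 := dvd_rfl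
  exact (two_dvd_iff _).mp this _

end Vale.Agent.P033.CH
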