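import Vale.Agent.P033.CH.Global

/-!
# No circulant Hadamard sequence of length `4 u ^ 2`, `u > 1` odd: assembly
-/

namespace Vale.Agent.P033.CH

open Finset

theorem no_seq {n u : ℕ} [NeZero n] (hn : n = 4 * u ^ 2) (hu : Odd u) (hu1 : u ≠ 1)
    (h : ZMod n → ℤ) (h1 : ∀ i, h i = 1 ∨ h i = -1)
    (hac : ∀ t : ZMod n, t ≠ 0 → ∑ j, h j * h (j + t) = 0) : False := by
  classical
  have hu0 : u ≠ 0 := by rintro rfl; exact absurd hu (by decide)
  set P := u.primeFactors with hPdef
  have hPp : ∀ p ∈ P, p.Prime := fun p hp => Nat.prime_of_mem_primeFactors hp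
  have hPodd : ∀ p ∈ P, Odd p := fun p hp =>
    Odd.of_dvd_nat hu (Nat.dvd_of_mem_primeFactors hp)
  have hPne : P.Nonempty := by
    rw [hPdef, Nat.nonempty_primeFactors]; omega
  obtain ⟨M, hM, e, hI⟩ : ∃ M : ℕ, M = 4 * ∏ p ∈ P, p ∧ ∃ e : ℕ → ZMod M, Idem M P e :=
    ⟨_, rfl, exists_idem P hPp hPodd⟩
  have hprod_dvd : ∏ p ∈ P, p ∣ u := Nat.prod_primeFactors_dvd u
  have hMn : M ∣ n := by
    rw [hM, hn]
    exact mul_dvd_mul_left 4 (hprod_dvd.trans (dvd_pow_self u two_ne_zero))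
  have hM0 : M ≠ 0 := by
    intro h0; rw [h0] at hMn
    exact NeZero.ne n (Nat.eq_zero_of_zero_dvd hMn)
  have : NeZero M := ⟨hM0⟩
  have hn0 : (n : ZMod M) = 0 := (ZMod.natCast_eq_zero_iff n M).mpr hMn
  obtain ⟨b, hb⟩ := exists_K_eq (M := M) h h1
  refine end_game (n := n) (u := u) hI hPne hn hu hn0 (K' := K h) (b := b) hb
    (fun x => K_mul_K_neg hMn h h1 hac x) (fun y x => mulMap_aeval y x _) ?_
  -- divisibility by `u ^ (2 ^ k)`
  set L := P.toList with hL
  have hk : 0 < L.length := by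
    rw [hL, Finset.length_toList]; exact Finset.card_pos.mpr hPne
  have hpow2 : 2 ^ L.length = 2 * 2 ^ (L.length - 1) := by
    rw [← pow_succ']; congr 1; omega
  have hufac : (u : Lam M) ^ (2 ^ L.length)
      = ∏ p ∈ P, ((p : Lam M) ^ (2 * u.factorization p)) ^ (2 ^ (L.length - 1)) := by
    have h3 : u = ∏ p ∈ P, p ^ u.factorization p := by
      conv_lhs => rw [← Nat.prod_factorization_pow_eq_self hu0]
      rfl
    rw [Finset.prod_pow]
    have h4 : (∏ p ∈ P, (p : Lam M) ^ (2 * u.factorization p)) = (u : Lam M) ^ 2 := by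
      conv_rhs => rw [h3]
      push_cast
      rw [← Finset.prod_pow]
      refine Finset.prod_congr rfl ?_
      intro p _
      rw [← pow_mul, mul_comm]
    rw [h4, ← pow_mul, hpow2]
  rw [hufac]
  apply Finset.prod_dvd_of_coprime
  · intro p hp q hq hpq
    have hcop : Nat.Coprime p q :=
      (Nat.coprime_primes (hPp p hp) (hPp q hq)).mpr hpq
    have := (lam_coprime (M := M) hcop)
    exact (this.pow).pow
  · intro p hp
    have hpr : Fact p.Prime := ⟨hPp p hp⟩
    have ha : 1 ≤ u.factorization p := by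
      have := (hPp p hp).factorization_pos_of_dvd hu0 (Nat.dvd_of_mem_primeFactors hp)
      omega
    apply EL_dvd e p _ _ L (Finset.mem_toList.mpr hp)
    intro x
    have hcop : p.Coprime (4 * ∏ q ∈ P.erase p, q) := by
      refine Nat.Coprime.mul_right ?_ ?_
      · have h5 : Nat.Coprime p 2 := (hPodd p hp).coprime_two_right
        have h4 : (4 : ℕ) = 2 ^ 2 := by norm_num
        rw [h4]; exact Nat.Coprime.pow_right 2 h5
      · refine Nat.Coprime.prod_right ?_
        intro q hq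
        rw [Finset.mem_erase] at hq
        exact (Nat.coprime_primes (hPp p hp) (hPp q hq.2)).mpr (Ne.symm hq.1)
    have hM'M : (4 * ∏ q ∈ P.erase p, q) ∣ M := by
      rw [hM, ← Finset.mul_prod_erase P (fun x => x) hp]
      exact ⟨p, by ring⟩
    have hM'pos : 0 < 4 * ∏ q ∈ P.erase p, q := Nat.pos_of_dvd_of_pos hM'M (Nat.pos_of_ne_zero hM0)
    have hM'1 : 1 < 4 * ∏ q ∈ P.erase p, q := by omega
    refine lp_div hcop hM'1 (by omega) ?_ (hM'M.trans hMn) hMn h h1 hac x (e p * x) ?_ ?_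
    · rw [hn, mul_comm 2, pow_mul]
      exact (pow_dvd_pow_of_dvd (Nat.ordProj_dvd u p) 2).mul_left 4
    · rw [← mul_assoc, hI.mulq p hp, zero_mul]
    · rw [show (p : ZMod M) * (x - e p * x) = ((p : ZMod M) * (1 - e p)) * x by ring,
        hI.mulp p hp, zero_mul]

end Vale.Agent.P033.CH
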