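import Vale.Agent.P033.CH.Contra

/-!
# No circulant Hadamard sequence of length `4 u ^ 2`, `u > 1` odd
-/

namespace Vale.Agent.P033.CH

open Finset

theorem lam_cancel {M : ℕ} {k : ℕ} (hk : k ≠ 0) {x y : Lam M}
    (h : (k : Lam M) * x = (k : Lam M) * y) : x = y := by
  have : (k : Lam M) * (x - y) = 0 := by rw [mul_sub, h, sub_self]
  exact sub_eq_zero.mp (lam_reg hk _ this)

theorem lam_coprime {M : ℕ} {a b : ℕ} (h : Nat.Coprime a b) :
    IsCoprime (a : Lam M) (b : Lam M) := by
  have h1 : IsCoprime (a : ℤ) (b : ℤ) := Nat.isCoprime_iff_coprime.mpr h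
  have h2 := h1.map (Int.castRingHom (Lam M))
  simpa using h2

/-- The end of the argument, from the divisibility of `E` by `u ^ (2 ^ k)`. -/
theorem end_game {n u M : ℕ} [NeZero M] {P : Finset ℕ} {e : ℕ → ZMod M} (hI : Idem M P e)
    (hP : P.Nonempty) (hn : n = 4 * u ^ 2) (hu : Odd u) (hMn : (n : ZMod M) = 0)
    {K' b : ZMod M → Lam M} (hK : ∀ x, K' x = J n x + 2 * b x)
    (hKK : ∀ x, K' x * K' (-x) = (n : Lam M))
    (hmap : ∀ y x, mulMap y (K' x) = K' (y * x))
    (hdiv : (u : Lam M) ^ (2 ^ P.toList.length) ∣ EL K' e P.toList 1) : False := by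
  classical
  set L := P.toList with hL
  have hLP : ∀ q ∈ L, q ∈ P := fun q hq => Finset.mem_toList.mp hq
  have hPL : ∀ q ∈ P, q ∈ L := fun q hq => Finset.mem_toList.mpr hq
  have hLnd : L.Nodup := Finset.nodup_toList P
  have hk : 0 < L.length := by
    rw [hL, Finset.length_toList]; exact Finset.card_pos.mpr hP
  have hu0 : u ≠ 0 := by rintro rfl; exact absurd hu (by decide)
  -- exponents
  obtain ⟨w, hw1, hw2⟩ : ∃ w, 2 ^ (L.length - 1) = w + 1 ∧ 2 ^ L.length = 2 * (w + 1) := by
    have hpos : 0 < 2 ^ (L.length - 1) := by positivity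
    refine ⟨2 ^ (L.length - 1) - 1, by omega, ?_⟩
    have h1 : L.length = (L.length - 1) + 1 := by omega
    rw [h1, pow_succ]
    simp only [Nat.add_sub_cancel]
    omega
  set c : ZMod M := (L.map e).prod with hc
  have hcP : c = ∏ p ∈ P, e p := Finset.prod_map_toList P e
  have hc4 : 4 * c = 0 := by rw [hcP]; exact hI.four
  have hc2 : 2 * c ≠ 0 := by rw [hcP]; exact hI.two
  have hcfix : ∀ p ∈ P, e p * c = c := by
    intro p hp
    rw [hcP, ← Finset.mul_prod_erase P e hp, ← mul_assoc, hI.idem p hp]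
  set E := EL K' e L 1 with hE
  set r : ℕ := ∏ p ∈ P, p with hr
  have hrodd : Odd r := by
    have : ∀ s : Finset ℕ, (∀ p ∈ s, Odd p) → Odd (∏ p ∈ s, p) := by
      intro s
      induction s using Finset.induction_on with
      | empty => intro _; simp
      | insert a s ha ih =>
        intro hs
        rw [Finset.prod_insert ha]
        exact (hs a (Finset.mem_insert_self a s)).mul
          (ih (fun p hp => hs p (Finset.mem_insert_of_mem hp)))
    exact this P hI.odd
  -- the values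
  have hEE : E * mulMap (-1) E = (n : Lam M) ^ (2 * (w + 1)) := by
    rw [hE, mulMap_EL hmap, mul_one, ← hw2]
    exact EL_mul_neg hKK e L 1
  have hEid : ∀ p ∈ P, mulMap (e p) E = (n : Lam M) ^ (w + 1) := by
    intro p hp
    rw [hE, mulMap_EL hmap, ← hw1]
    exact EL_idem hKK e p (hI.idem p hp) L (hPL p hp) 1
  have hann : (E - (n : Lam M) ^ (w + 1)) * Phi e P = (E - (n : Lam M) ^ (w + 1)) * (r : Lam M) := by
    apply mul_Phi_of_ann
    intro p hp
    rw [mul_Np (hI.mulp p hp), map_sub, hEid p hp, map_pow, map_natCast, sub_self, zero_mul]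
  obtain ⟨Y, s, hs, hD⟩ := EL_D (K' := K') hI hMn hK L hLP hLnd 1 (by
    intro p _; left; rw [mul_one])
  rw [← hE, ← hc, mul_one, hw2] at hD
  have hexp : 2 * (w + 1) - 1 = 2 * w + 1 := by omega
  rw [hexp] at hD
  rw [hw2] at hdiv
  have hss : s * s = 1 := by rcases hs with h | h <;> rw [h] <;> ring
  have hnpow : (n : Lam M) ^ (w + 1) = 2 ^ (2 * w + 1) * 2 * (u : Lam M) ^ (2 * (w + 1)) := by
    rw [hn]; push_cast
    rw [mul_pow, ← pow_mul, show (4 : Lam M) = 2 ^ 2 by norm_num, ← pow_mul, ← pow_succ]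
    congr 2
  -- `2 ^ (2 w + 1)` divides `E`
  have hrE : (r : Lam M) * E = 2 ^ (2 * w + 1) *
      (2 * (u : Lam M) ^ (2 * (w + 1)) * ((r : Lam M) - Phi e P) + Y * K' (s * c) * Phi e P) := by
    have h1 : (r : Lam M) * E = (n : Lam M) ^ (w + 1) * ((r : Lam M) - Phi e P) + E * Phi e P := by
      linear_combination (-1 : Lam M) * hann
    rw [h1, hD, hnpow]; ring
  have h2E : (2 : Lam M) ^ (2 * w + 1) ∣ E := by
    have hcop : IsCoprime (((2 ^ (2 * w + 1) : ℕ) : Lam M)) (r : Lam M) :=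
      lam_coprime (Nat.Coprime.pow_left _ hrodd.coprime_two_left)
    have : (((2 ^ (2 * w + 1) : ℕ) : Lam M)) ∣ (r : Lam M) * E := by
      rw [hrE]; push_cast; exact Dvd.intro _ rfl
    have h3 := hcop.dvd_of_dvd_mul_left this
    push_cast at h3
    exact h3
  have hEη : ∃ η : Lam M, E = ((2 ^ (2 * w + 1) * u ^ (2 * (w + 1)) : ℕ) : Lam M) * η := by
    have hcop : IsCoprime (((2 ^ (2 * w + 1) : ℕ) : Lam M)) ((u ^ (2 * (w + 1)) : ℕ) : Lam M) :=
      lam_coprime (Nat.Coprime.pow _ _ hu.coprime_two_left)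
    have := hcop.mul_dvd (by push_cast; exact h2E) (by push_cast; exact hdiv)
    obtain ⟨η, hη⟩ := this
    refine ⟨η, ?_⟩
    rw [hη]; push_cast; ring
  obtain ⟨η, hη⟩ := hEη
  set c0 : ℕ := 2 ^ (2 * w + 1) * u ^ (2 * (w + 1)) with hc0
  have hc00 : c0 ≠ 0 := by positivity
  have hηη : η * mulMap (-1) η = 4 := by
    have h1 := hEE
    rw [hη, map_mul, map_natCast] at h1
    apply lam_cancel (k := c0 * c0) (mul_ne_zero hc00 hc00)
    push_cast
    have h2 : (n : Lam M) ^ (2 * (w + 1)) = (c0 : Lam M) * c0 * 4 := by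
      rw [two_mul (w + 1), pow_add, hnpow, hc0]; push_cast; ring
    rw [← h2, ← h1]; ring
  have hηid : ∀ p ∈ P, mulMap (e p) η = 2 := by
    intro p hp
    have h1 := hEid p hp
    rw [hη, map_mul, map_natCast] at h1
    apply lam_cancel hc00
    rw [h1, hnpow, hc0]; push_cast; ring
  have h2ne : (2 ^ (2 * w + 1) : ℕ) ≠ 0 := by positivity
  have hrη : (r : Lam M) * (u : Lam M) ^ (2 * (w + 1)) * η =
      2 * (u : Lam M) ^ (2 * (w + 1)) * ((r : Lam M) - Phi e P) + Y * K' (s * c) * Phi e P := by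
    apply lam_cancel h2ne
    have h1 := hrE
    rw [hη, hc0] at h1
    push_cast at h1 ⊢
    rw [← h1]; ring
  have hηPhi : (u : Lam M) ^ (2 * (w + 1)) * η * Phi e P = Y * K' (s * c) * Phi e P := by
    apply lam_cancel h2ne
    have h1 := hD
    rw [hη, hc0] at h1
    push_cast at h1 ⊢
    linear_combination h1
  have hnx : ∀ x : ZMod M, (n : ZMod M) * x = 0 := fun x => by rw [hMn, zero_mul]
  -- `(c - 1) η` is divisible by two
  have hcη : (2 : Lam M) ∣ (gr c - 1) * η := by
    have h1 : (gr c - 1) * J n (s * c) = 0 := by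
      have h3 := J_gr' (hnx (s * c)) s
      rw [← mul_assoc, hss, one_mul] at h3
      linear_combination h3
    have hodd : Odd (r * u ^ (2 * (w + 1))) := hrodd.mul hu.pow
    apply two_dvd_of_odd_mul hodd
    push_cast
    refine ⟨(gr c - 1) * ((u : Lam M) ^ (2 * (w + 1)) * ((r : Lam M) - Phi e P)
      + Y * b (s * c) * Phi e P), ?_⟩
    have h4 := hK (s * c)
    linear_combination (gr c - 1) * hrη + (gr c - 1) * Y * Phi e P * h4 + Y * Phi e P * h1
  -- `η` is not divisible by two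
  have hnot : ¬ (2 : Lam M) ∣ η := by
    rintro ⟨η', hη'⟩
    have h1 : η' * mulMap (-1) η' = 1 := by
      apply lam_cancel (k := 4) (by norm_num)
      have h3 := hηη
      rw [hη', map_mul, map_ofNat] at h3
      push_cast
      linear_combination h3
    have h2 : 2 * ((u : Lam M) ^ (2 * (w + 1)) * (K' (-(s * c)) * Phi e P))
        = 2 * (2 * ((u : Lam M) ^ 2 * Y * mulMap (-1) η' * Phi e P)) := by
      have h3 := hηPhi
      rw [hη'] at h3
      have h4 := hKK (s * c)
      have h5 : (n : Lam M) = 4 * (u : Lam M) ^ 2 := by rw [hn]; push_cast; ring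
      rw [h5] at h4
      linear_combination (mulMap (-1) η' * K' (-(s * c))) * h3
        + (-2 * (u : Lam M) ^ (2 * (w + 1)) * (K' (-(s * c)) * Phi e P)) * h1
        + (Y * mulMap (-1) η' * Phi e P) * h4
    have h3 : ((2 : ℕ) : Lam M) * ((u : Lam M) ^ (2 * (w + 1)) * (K' (-(s * c)) * Phi e P))
        = ((2 : ℕ) : Lam M) * (2 * ((u : Lam M) ^ 2 * Y * mulMap (-1) η' * Phi e P)) := by
      push_cast; exact h2
    have h4 := lam_cancel (by norm_num) h3
    have h5 : (2 : Lam M) ∣ ((u ^ (2 * (w + 1)) : ℕ) : Lam M) * (K' (-(s * c)) * Phi e P) := by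
      push_cast; rw [h4]; exact Dvd.intro _ rfl
    have h6 := two_dvd_of_odd_mul hu.pow h5
    have h7 : (2 : Lam M) ∣ J n (-(s * c)) * Phi e P := by
      rw [hK, add_mul] at h6
      exact (dvd_add_left (by rw [mul_assoc]; exact Dvd.intro _ rfl)).mp h6
    rw [hn] at h7
    refine J_not hI (m := u ^ 2) hu.pow (x := -(s * c)) ?_ ?_ ?_ h7
    · linear_combination (-s) * hc4
    · intro h0
      apply hc2
      linear_combination (-s) * h0 - 2 * c * hss
    · intro p hp
      linear_combination (-s) * hcfix p hp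
  exact final_contra hP hc4 hc2 hcfix η hηη hηid hcη hnot

end Vale.Agent.P033.CH
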