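import Mathlib

/-!
# Idempotents of `ZMod M`, where `M = 4 ∏_{p ∈ P} p` for a finite set `P` of odd primes
-/

namespace Vale.Agent.P033.CH

open Finset

/-- A system of idempotents `e p` of `ZMod M`, one for each `p` in `P`. -/
structure Idem (M : ℕ) (P : Finset ℕ) (e : ℕ → ZMod M) : Prop where
  prime : ∀ p ∈ P, p.Prime
  odd : ∀ p ∈ P, Odd p
  mulp : ∀ p ∈ P, (p : ZMod M) * (1 - e p) = 0
  mulq : ∀ p ∈ P, ((4 * ∏ q ∈ P.erase p, q : ℕ) : ZMod M) * e p = 0
  idem : ∀ p ∈ P, e p * e p = e p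
  cross : ∀ p ∈ P, ∀ q ∈ P, p ≠ q → (1 - e p) * e q = 1 - e p
  ne_one : ∀ p ∈ P, e p ≠ 1
  four : 4 * ∏ p ∈ P, e p = 0
  two : 2 * ∏ p ∈ P, e p ≠ 0

theorem exists_idem (P : Finset ℕ) (hP : ∀ p ∈ P, p.Prime) (hodd : ∀ p ∈ P, Odd p) :
    ∃ e : ℕ → ZMod (4 * ∏ p ∈ P, p), Idem (4 * ∏ p ∈ P, p) P e := by
  classical
  -- coprimality
  have hcop : ∀ p ∈ P, Nat.Coprime p (4 * ∏ q ∈ P.erase p, q) := by
    intro p hp
    refine Nat.Coprime.mul_right ?_ ?_
    · have : Nat.Coprime p 2 := (hodd p hp).coprime_two_right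
      have h4 : (4 : ℕ) = 2 ^ 2 := by norm_num
      rw [h4]; exact Nat.Coprime.pow_right 2 this
    · refine Nat.Coprime.prod_right ?_
      intro q hq
      rw [Finset.mem_erase] at hq
      exact (Nat.coprime_primes (hP p hp) (hP q hq.2)).mpr (Ne.symm hq.1)
  have hex : ∀ p : ℕ, ∃ k : ℤ, p ∈ P → ((p : ℤ) ∣ k ∧ ((4 * ∏ q ∈ P.erase p, q : ℕ) : ℤ) ∣ 1 - k) := by
    intro p
    by_cases hp : p ∈ P
    · have h1 : IsCoprime (p : ℤ) ((4 * ∏ q ∈ P.erase p, q : ℕ) : ℤ) :=
        Nat.isCoprime_iff_coprime.mpr (hcop p hp)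
      obtain ⟨a, b, hab⟩ := h1
      refine ⟨a * p, fun _ => ⟨Dvd.intro_left a rfl, ⟨b, ?_⟩⟩⟩
      linear_combination -hab
    · exact ⟨0, fun h => absurd h hp⟩
  choose E hE using hex
  set M := 4 * ∏ p ∈ P, p with hM
  have hMp : ∀ p ∈ P, (M : ℤ) = (p : ℤ) * ((4 * ∏ q ∈ P.erase p, q : ℕ) : ℤ) := by
    intro p hp
    rw [hM, ← Finset.mul_prod_erase P (fun x => x) hp]
    push_cast; ring
  have hz : ∀ k : ℤ, (M : ℤ) ∣ k → (k : ZMod M) = 0 := fun k hk =>
    (ZMod.intCast_zmod_eq_zero_iff_dvd k M).mpr hk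
  refine ⟨fun p => (E p : ZMod M), hP, hodd, ?_, ?_, ?_, ?_, ?_, ?_, ?_⟩
  · intro p hp
    have := hz ((p : ℤ) * (1 - E p)) (by
      rw [hMp p hp]; exact mul_dvd_mul_left _ (hE p hp).2)
    push_cast at this
    exact this
  · intro p hp
    have := hz (((4 * ∏ q ∈ P.erase p, q : ℕ) : ℤ) * (E p)) (by
      rw [hMp p hp, mul_comm (p : ℤ)]; exact mul_dvd_mul_left _ (hE p hp).1)
    rw [Int.cast_mul, Int.cast_natCast] at this
    exact this
  · intro p hp
    have := hz (E p * (1 - E p)) (by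
      rw [hMp p hp]; exact mul_dvd_mul (hE p hp).1 (hE p hp).2)
    push_cast at this
    linear_combination -this
  · intro p hp q hq hpq
    have h2 : (p : ℤ) ∣ 1 - E q := by
      refine dvd_trans ?_ (hE q hq).2
      have : p ∣ 4 * ∏ x ∈ P.erase q, x :=
        (Finset.dvd_prod_of_mem (fun x => x) (Finset.mem_erase.mpr ⟨hpq, hp⟩)).mul_left 4
      exact_mod_cast this
    have := hz ((1 - E q) * (1 - E p)) (by
      rw [hMp p hp]; exact mul_dvd_mul h2 (hE p hp).2)
    push_cast at this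
    linear_combination -this
  · intro p hp h1
    have h2 : ((E p - 1 : ℤ) : ZMod M) = 0 := by push_cast; rw [h1]; ring
    rw [ZMod.intCast_zmod_eq_zero_iff_dvd] at h2
    have h3 : (p : ℤ) ∣ E p - 1 := (by rw [hMp p hp]; exact Dvd.intro _ rfl : (p : ℤ) ∣ (M : ℤ)).trans h2
    have h4 : (p : ℤ) ∣ 1 := by
      have := dvd_sub (hE p hp).1 h3
      simpa using this
    have h5 := Int.eq_one_of_dvd_one (by positivity) h4
    exact (hP p hp).one_lt.ne' (by exact_mod_cast h5)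
  · have := hz (4 * ∏ p ∈ P, E p) (by
      rw [hM]; push_cast
      exact mul_dvd_mul_left 4 (Finset.prod_dvd_prod_of_dvd _ _ (fun p hp => (hE p hp).1)))
    push_cast at this
    exact this
  · intro h0
    have h1 : ((2 * ∏ p ∈ P, E p : ℤ) : ZMod M) = 0 := by push_cast; exact h0
    rw [ZMod.intCast_zmod_eq_zero_iff_dvd] at h1
    have h2 : (4 : ℤ) ∣ 2 * ∏ p ∈ P, E p := by
      refine dvd_trans ?_ h1
      rw [hM]; push_cast; exact Dvd.intro _ rfl
    have h3 : ∀ p ∈ P, Odd (E p) := by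
      intro p hp
      have h4 : (2 : ℤ) ∣ 1 - E p := by
        refine dvd_trans ?_ (hE p hp).2
        push_cast
        exact Dvd.dvd.mul_right (by norm_num) _
      obtain ⟨c, hc⟩ := h4
      exact ⟨-c, by linear_combination -hc⟩
    have h5 : Odd (∏ p ∈ P, E p) := by
      have : ∀ s : Finset ℕ, (∀ p ∈ s, Odd (E p)) → Odd (∏ p ∈ s, E p) := by
        intro s
        induction s using Finset.induction_on with
        | empty => intro _; simp
        | insert a s ha ih =>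
          intro hs
          rw [Finset.prod_insert ha]
          exact (hs a (Finset.mem_insert_self a s)).mul
            (ih (fun p hp => hs p (Finset.mem_insert_of_mem hp)))
      exact this P h3
    obtain ⟨c, hc⟩ := h5
    rw [hc] at h2
    omega

end Vale.Agent.P033.CH
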