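import Mathlib
import Vale.Agent.P033.Defs

namespace Vale.Agent.P033.CH

open Finset

/-- version of `order_iff_seq` on `Fin n` -/
theorem link_fin {k : ℕ} (H : Matrix (Fin (k + 1)) (Fin (k + 1)) ℝ)
    (hH : IsHadamard (k + 1) H) (hC : IsCirculant (k + 1) H) :
    ∃ h : Fin (k + 1) → ℤ, (∀ i, h i = 1 ∨ h i = -1) ∧
      (∀ t : Fin (k + 1), t ≠ 0 → ∑ j, h j * h (j + t) = 0) := by
  obtain ⟨hpm, hH⟩ := hH
  obtain ⟨h, hh⟩ := hC
  have hval : ∀ j : Fin (k + 1), h j = 1 ∨ h j = -1 := by
    intro j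
    have := hpm 0 j
    rw [hh 0 j, sub_zero] at this
    exact this
  have hcorr : ∀ t : Fin (k + 1), t ≠ 0 → ∑ j, h j * h (j + t) = 0 := by
    intro t ht
    have e1 := congrFun (congrFun hH t) 0
    rw [Matrix.mul_apply] at e1
    simp only [Matrix.transpose_apply, hh, sub_zero, Matrix.smul_apply, Matrix.one_apply_ne ht,
      smul_zero] at e1
    rw [← Equiv.sum_comp (Equiv.addRight t)] at e1
    simpa using e1
  refine ⟨fun j => if h j = 1 then 1 else -1, ?_, ?_⟩
  · intro i
    by_cases hi : h i = 1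
    · left; simp only [hi, if_true]
    · right; simp only [hi, if_false]
  · intro t ht
    have hcast : ∀ j : Fin (k + 1), (((if h j = 1 then 1 else -1 : ℤ)) : ℝ) = h j := by
      intro j
      rcases hval j with hj | hj
      · rw [if_pos hj, hj]; norm_num
      · rw [if_neg (by rw [hj]; norm_num), hj]; norm_num
    have e2 := hcorr t ht
    have e3 : ((∑ j : Fin (k + 1), (if h j = 1 then 1 else -1 : ℤ) *
        (if h (j + t) = 1 then 1 else -1 : ℤ) : ℤ) : ℝ) = 0 := by
      rw [← e2, Int.cast_sum]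
      refine Finset.sum_congr rfl fun j _ => ?_
      rw [Int.cast_mul, hcast, hcast]
    exact_mod_cast e3

/-- A circulant Hadamard matrix of order `n` gives a `±1` function on `ZMod n` with vanishing
autocorrelations. -/
theorem order_iff_seq {n : ℕ} [NeZero n] : IsCirculantHadamardOrder n →
    ∃ h : ZMod n → ℤ, (∀ i, h i = 1 ∨ h i = -1) ∧
      (∀ t : ZMod n, t ≠ 0 → ∑ j, h j * h (j + t) = 0) := by
  rintro ⟨_, H, hH, hC⟩
  cases n with
  | zero => exact absurd rfl (NeZero.ne 0)
  | succ k => exact link_fin H hH hC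

/-- `1` is the order of a circulant Hadamard matrix. -/
theorem one : IsCirculantHadamardOrder 1 := by
  refine ⟨le_rfl, Matrix.of fun _ _ => 1, ⟨fun _ _ => Or.inl rfl, ?_⟩,
    ⟨fun _ => 1, fun _ _ => rfl⟩⟩
  ext i j
  fin_cases i; fin_cases j
  simp [Matrix.mul_apply]

/-- the first row `(-1, 1, 1, 1)` -/
def linkRow (x : Fin 4) : ℤ := if x = 0 then -1 else 1

theorem linkRow_corr : ∀ i j : Fin 4,
    ∑ k, linkRow (k - i) * linkRow (k - j) = if i = j then 4 else 0 := by
  decide

theorem linkRow_val : ∀ i : Fin 4, linkRow i = 1 ∨ linkRow i = -1 := by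
  decide

/-- `4` is the order of a circulant Hadamard matrix. -/
theorem four : IsCirculantHadamardOrder 4 := by
  refine ⟨by norm_num, Matrix.of fun i j => ((linkRow (j - i) : ℤ) : ℝ), ⟨fun i j => ?_, ?_⟩,
    ⟨fun x => ((linkRow x : ℤ) : ℝ), fun _ _ => rfl⟩⟩
  · rw [Matrix.of_apply]
    rcases linkRow_val (j - i) with h | h
    · left; rw [h]; norm_num
    · right; rw [h]; norm_num
  · ext i j
    rw [Matrix.mul_apply]
    simp only [Matrix.transpose_apply, Matrix.of_apply, Matrix.smul_apply, smul_eq_mul]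
    have h := congrArg (fun z : ℤ => (z : ℝ)) (linkRow_corr i j)
    simp only [Int.cast_sum, Int.cast_mul] at h
    rw [h]
    by_cases hij : i = j
    · subst hij; simp
    · simp [hij]

end Vale.Agent.P033.CH
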