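import Mathlib

/-!
# The local lemma
-/

namespace Vale.Agent.P033.CH

open Polynomial

theorem prime_pow_split {α : Type*} [CommRing α] [IsDomain α] {π : α} (hπ : Prime π) (N : ℕ)
    (x y : α) (h : π ^ N ∣ x * y) : ∃ i j, i + j = N ∧ π ^ i ∣ x ∧ π ^ j ∣ y := by
  induction N generalizing x y with
  | zero => exact ⟨0, 0, rfl, by simp, by simp⟩
  | succ N ih =>
    have h1 : π ∣ x * y := (dvd_pow_self π (Nat.succ_ne_zero N)).trans h
    rcases hπ.dvd_or_dvd h1 with hx | hy
    · obtain ⟨x', rfl⟩ := hx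
      have h2 : π ^ N ∣ x' * y := by
        rw [pow_succ', mul_assoc] at h
        exact (mul_dvd_mul_iff_left hπ.ne_zero).mp h
      obtain ⟨i, j, hij, hi, hj⟩ := ih x' y h2
      exact ⟨i + 1, j, by omega, by rw [pow_succ']; exact mul_dvd_mul_left _ hi, hj⟩
    · obtain ⟨y', rfl⟩ := hy
      have h2 : π ^ N ∣ x * y' := by
        rw [pow_succ', show x * (π * y') = π * (x * y') by ring] at h
        exact (mul_dvd_mul_iff_left hπ.ne_zero).mp h
      obtain ⟨i, j, hij, hi, hj⟩ := ih x y' h2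
      exact ⟨i, j + 1, by omega, hi, by rw [pow_succ']; exact mul_dvd_mul_left _ hj⟩

section dom

variable {O : Type*} [CommRing O] (p : ℕ)

theorem dvd_of_map_eq_zero (W : O[X])
    (h : W.map (Ideal.Quotient.mk (Ideal.span {(p : O)})) = 0) : (p : O[X]) ∣ W := by
  have h1 : (C (p : O)) ∣ W := by
    rw [C_dvd_iff_dvd_coeff]
    intro i
    have h2 := congrArg (fun q => q.coeff i) h
    simp only [coeff_map, coeff_zero] at h2
    rw [Ideal.Quotient.eq_zero_iff_mem, Ideal.mem_span_singleton] at h2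
    exact h2
  simpa using h1

theorem poly_reg (hreg : ∀ x : O, (p : O) * x = 0 → x = 0) (W : O[X]) (h : (p : O[X]) * W = 0) :
    W = 0 := by
  ext i
  have h2 := congrArg (fun q => q.coeff i) h
  simp only [coeff_zero] at h2
  rw [coeff_zero]
  apply hreg
  rw [← h2, ← C_eq_natCast, coeff_C_mul]

theorem local_domain [hp : Fact p.Prime] (hreg : ∀ x : O, (p : O) * x = 0 → x = 0)
    (hprime : (Ideal.span {(p : O)}).IsPrime) (m : ℕ) (hm : 1 ≤ m) (A B : Polynomial O)
    (h : A * B ∈ Ideal.span {(p : Polynomial O) ^ m, (Polynomial.X ^ (p ^ m) - 1 : Polynomial O)}) :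
    A * Polynomial.C (B.eval 1) ∈
      Ideal.span {(p : Polynomial O) ^ m, (Polynomial.X ^ p - 1 : Polynomial O)} := by
  classical
  set F := O ⧸ Ideal.span {(p : O)} with hF
  have : IsDomain F := Ideal.Quotient.isDomain _
  set mk : O →+* F := Ideal.Quotient.mk (Ideal.span {(p : O)}) with hmk
  have hmksurj : Function.Surjective mk := Ideal.Quotient.mk_surjective
  have hpF : (p : F) = 0 := by
    have : mk (p : O) = 0 := by
      rw [hmk, Ideal.Quotient.eq_zero_iff_mem]; exact Ideal.mem_span_singleton_self _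
    rwa [map_natCast] at this
  have hchar : CharP F p := by
    have := CharP.ringChar_of_prime_eq_zero hp.out hpF
    exact ringChar.of_eq this
  have hfresh : ∀ k : ℕ, (X ^ (p ^ k) - 1 : F[X]) = (X - C 1) ^ (p ^ k) := by
    intro k
    rw [sub_pow_char_pow]; simp
  have hπ : Prime (X - C (1 : F)) := prime_X_sub_C 1
  -- cancellation of `p`
  have hcancel : ∀ (k s : ℕ), 1 ≤ s → ∀ W : O[X],
      (p : O[X]) * W ∈ Ideal.span {(p : O[X]) ^ (k + 1), (X ^ s - 1 : O[X])} →
      W ∈ Ideal.span {(p : O[X]) ^ k, (X ^ s - 1 : O[X])} := by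
    intro k s hs W hW
    rw [Ideal.mem_span_pair] at hW ⊢
    obtain ⟨U, V, hUV⟩ := hW
    have h1 := congrArg (Polynomial.map mk) hUV
    simp only [Polynomial.map_add, Polynomial.map_mul, Polynomial.map_pow, Polynomial.map_natCast,
      Polynomial.map_sub, Polynomial.map_X, Polynomial.map_one] at h1
    have hpFX : (p : F[X]) = 0 := by rw [← C_eq_natCast, hpF, C_0]
    rw [hpFX, zero_mul, zero_pow (Nat.succ_ne_zero k), mul_zero, zero_add] at h1
    have hne : (X ^ s - 1 : F[X]) ≠ 0 := (monic_X_pow_sub_C (1 : F) (by omega)).ne_zero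
    have hV : V.map mk = 0 := by
      rcases mul_eq_zero.mp h1 with h2 | h2
      · exact h2
      · exact absurd h2 hne
    obtain ⟨V₁, rfl⟩ := dvd_of_map_eq_zero p V hV
    refine ⟨U, V₁, ?_⟩
    have h3 : (p : O[X]) * (U * (p : O[X]) ^ k + V₁ * (X ^ s - 1) - W) = 0 := by
      linear_combination hUV
    exact sub_eq_zero.mp (poly_reg p hreg _ h3)
  -- reduction
  have hlift : ∀ (s : ℕ) (W : O[X]), (X ^ s - 1 : F[X]) ∣ W.map mk →
      ∃ W₁ Q : O[X], W = (p : O[X]) * W₁ + (X ^ s - 1) * Q := by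
    intro s W hW
    obtain ⟨q, hq⟩ := hW
    obtain ⟨Q, hQ⟩ := Polynomial.map_surjective mk hmksurj q
    have h1 : (W - (X ^ s - 1) * Q).map mk = 0 := by
      simp only [Polynomial.map_sub, Polynomial.map_mul, Polynomial.map_pow, Polynomial.map_X,
        Polynomial.map_one]
      rw [hq, hQ, sub_self]
    obtain ⟨W₁, hW₁⟩ := dvd_of_map_eq_zero p _ h1
    exact ⟨W₁, Q, by rw [← hW₁]; ring⟩
  have hmod : ∀ (k s : ℕ), 1 ≤ k → ∀ W : O[X],
      W ∈ Ideal.span {(p : O[X]) ^ k, (X ^ s - 1 : O[X])} → (X ^ s - 1 : F[X]) ∣ W.map mk := by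
    intro k s hk W hW
    rw [Ideal.mem_span_pair] at hW
    obtain ⟨U, V, hUV⟩ := hW
    have h1 := congrArg (Polynomial.map mk) hUV
    simp only [Polynomial.map_add, Polynomial.map_mul, Polynomial.map_pow, Polynomial.map_natCast,
      Polynomial.map_sub, Polynomial.map_X, Polynomial.map_one] at h1
    have hpFX : (p : F[X]) = 0 := by rw [← C_eq_natCast, hpF, C_0]
    rw [hpFX, zero_pow (by omega), mul_zero, zero_add] at h1
    exact ⟨V.map mk, by rw [← h1]; ring⟩
  induction m, hm using Nat.le_induction generalizing A B with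
  | base =>
    have h1 := hmod 1 _ le_rfl _ h
    rw [Polynomial.map_mul, hfresh] at h1
    by_cases hb : mk (B.eval 1) = 0
    · rw [hmk, Ideal.Quotient.eq_zero_iff_mem, Ideal.mem_span_singleton] at hb
      obtain ⟨c, hc⟩ := hb
      rw [Ideal.mem_span_pair]
      refine ⟨A * C c, 0, ?_⟩
      rw [hc, C_mul, C_eq_natCast]; ring
    · have h2 : ¬ (X - C (1 : F)) ∣ B.map mk := by
        rw [dvd_iff_isRoot, IsRoot.def]
        intro h3
        apply hb
        rw [← h3, eval_map, ← map_one mk, eval₂_at_apply]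
      have h3 : (X - C (1 : F)) ^ p ^ 1 ∣ A.map mk :=
        hπ.pow_dvd_of_dvd_mul_right _ h2 h1
      rw [← hfresh] at h3
      obtain ⟨A₁, Q, hA⟩ := hlift _ A h3
      rw [Ideal.mem_span_pair]
      refine ⟨A₁ * C (B.eval 1), Q * C (B.eval 1), ?_⟩
      rw [hA, pow_one, pow_one]; ring
  | succ m hm ih =>
    have hs1 : 1 ≤ p ^ m := Nat.one_le_pow _ _ hp.out.pos
    -- `X ^ p - 1 ∣ X ^ (p ^ m) - 1 ∣ X ^ (p ^ (m+1)) - 1`
    have hd1 : (X ^ p - 1 : O[X]) ∣ X ^ (p ^ m) - 1 := by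
      obtain ⟨m', rfl⟩ : ∃ m', m = m' + 1 := ⟨m - 1, by omega⟩
      rw [pow_succ', pow_mul]
      exact sub_one_dvd_pow_sub_one _ _
    have hd2 : (X ^ (p ^ m) - 1 : O[X]) ∣ X ^ (p ^ (m + 1)) - 1 := by
      rw [pow_succ, pow_mul]
      exact sub_one_dvd_pow_sub_one _ _
    have hAB : A * B ∈ Ideal.span {(p : O[X]) ^ (m + 1), (X ^ (p ^ m) - 1 : O[X])} := by
      rw [Ideal.mem_span_pair] at h ⊢
      obtain ⟨U, V, hUV⟩ := h
      obtain ⟨T, hT⟩ := hd2
      exact ⟨U, V * T, by rw [← hUV, hT]; ring⟩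
    have h1 := hmod (m + 1) _ (by omega) _ h
    rw [Polynomial.map_mul, hfresh] at h1
    obtain ⟨i, j, hij, hi, hj⟩ := prime_pow_split hπ _ _ _ h1
    have h2 : 2 * p ^ m ≤ p ^ (m + 1) := by
      rw [pow_succ, mul_comm]; exact Nat.mul_le_mul_left _ hp.out.two_le
    obtain ⟨T, hT⟩ := hd1
    rcases (by omega : p ^ m ≤ i ∨ p ^ m ≤ j) with hi' | hj'
    · have h3 : (X ^ (p ^ m) - 1 : F[X]) ∣ A.map mk := by
        rw [hfresh]; exact (pow_dvd_pow _ hi').trans hi
      obtain ⟨A₁, Q, hA⟩ := hlift _ A h3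
      have h4 : A₁ * B ∈ Ideal.span {(p : O[X]) ^ m, (X ^ (p ^ m) - 1 : O[X])} := by
        apply hcancel m _ hs1
        rw [Ideal.mem_span_pair] at hAB ⊢
        obtain ⟨U, V, hUV⟩ := hAB
        exact ⟨U, V - Q * B, by rw [hA] at hUV; linear_combination hUV⟩
      have h5 := ih A₁ B h4
      rw [Ideal.mem_span_pair] at h5 ⊢
      obtain ⟨U, V, hUV⟩ := h5
      refine ⟨U, p * V + T * Q * C (B.eval 1), ?_⟩
      rw [hA, hT]
      linear_combination (p : O[X]) * hUV
    · have h3 : (X ^ (p ^ m) - 1 : F[X]) ∣ B.map mk := by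
        rw [hfresh]; exact (pow_dvd_pow _ hj').trans hj
      obtain ⟨B₁, Q, hB⟩ := hlift _ B h3
      have h4 : A * B₁ ∈ Ideal.span {(p : O[X]) ^ m, (X ^ (p ^ m) - 1 : O[X])} := by
        apply hcancel m _ hs1
        rw [Ideal.mem_span_pair] at hAB ⊢
        obtain ⟨U, V, hUV⟩ := hAB
        exact ⟨U, V - Q * A, by rw [hB] at hUV; linear_combination hUV⟩
      have h5 := ih A B₁ h4
      rw [Ideal.mem_span_pair] at h5 ⊢
      obtain ⟨U, V, hUV⟩ := h5
      refine ⟨U, p * V, ?_⟩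
      have h6 : B.eval 1 = p * B₁.eval 1 := by rw [hB]; simp
      rw [h6, C_mul, C_eq_natCast]
      linear_combination (p : O[X]) * hUV

end dom

section frob

variable {R : Type*} [CommRing R]

theorem coeff_dvd_of_mem (c : R) (D W : R[X]) (hD : D.Monic)
    (h : W ∈ Ideal.span {C c, D}) (i : ℕ) : c ∣ (W %ₘ D).coeff i := by
  rw [Ideal.mem_span_pair] at h
  obtain ⟨U, V, hUV⟩ := h
  have h1 : W %ₘ D = C c * (U %ₘ D) := by
    have h2 : W %ₘ D = (C c * U) %ₘ D := by
      rw [← hUV, add_modByMonic, show V * D = D * V by ring, self_mul_modByMonic hD, add_zero,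
        mul_comm]
    rw [h2, ← smul_eq_C_mul, ← smul_eq_C_mul, smul_modByMonic]
  rw [h1, coeff_C_mul]
  exact Dvd.intro _ rfl

theorem mem_of_coeff_dvd (c : R) (D W : R[X])
    (h : ∀ i, c ∣ (W %ₘ D).coeff i) : W ∈ Ideal.span {C c, D} := by
  have h1 : C c ∣ W %ₘ D := (C_dvd_iff_dvd_coeff _ _).mpr h
  obtain ⟨U, hU⟩ := h1
  rw [Ideal.mem_span_pair]
  refine ⟨U, W /ₘ D, ?_⟩
  have := modByMonic_add_div W D
  rw [hU] at this
  linear_combination this

theorem local_frob (p : ℕ) [hp : Fact p.Prime] (hreg : ∀ x : R, (p : R) * x = 0 → x = 0)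
    (q : ℕ) (hq : 2 ≤ q) (hfrob : ∀ x : R, (p : R) ∣ x ^ q - x) (m : ℕ) (hm : 1 ≤ m)
    (A B : Polynomial R)
    (h : A * B ∈ Ideal.span {(p : Polynomial R) ^ m, (Polynomial.X ^ (p ^ m) - 1 : Polynomial R)}) :
    A * Polynomial.C (B.eval 1) ∈
      Ideal.span {(p : Polynomial R) ^ m, (Polynomial.X ^ p - 1 : Polynomial R)} := by
  classical
  have hD : (X ^ p - 1 : R[X]).Monic := monic_X_pow_sub_C (1 : R) hp.out.ne_zero
  have hC : ((p : R[X]) ^ m) = C ((p : R) ^ m) := by simp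
  rw [hC]
  apply mem_of_coeff_dvd
  intro i
  set c := ((A * C (B.eval 1)) %ₘ (X ^ p - 1)).coeff i with hc
  by_contra hcon
  -- the ideal
  let I : Ideal R := Submodule.colon (Ideal.span {(p : R) ^ m}) (({c} : Set R))
  have hmemI : ∀ s, s ∈ I ↔ (p : R) ^ m ∣ s * c := by
    intro s
    simp only [I, Submodule.mem_colon_singleton, smul_eq_mul, Ideal.mem_span_singleton]
  have hI : I ≠ ⊤ := by
    intro htop
    apply hcon
    have : (1 : R) ∈ I := by rw [htop]; trivial
    rw [hmemI, one_mul] at this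
    exact this
  obtain ⟨Q, hQ, hIQ⟩ := Ideal.exists_le_maximal I hI
  have hQp : Q.IsPrime := hQ.isPrime
  have hpQ : (p : R) ∈ Q := by
    have : (p : R) ^ m ∈ I := by rw [hmemI]; exact Dvd.intro _ rfl
    exact hQp.mem_of_pow_mem m (hIQ this)
  let O := Localization.AtPrime Q
  let f : R →+* O := algebraMap R O
  have hunit : ∀ s : R, s ∉ Q → IsUnit (f s) := fun s hs =>
    IsLocalization.map_units O (⟨s, hs⟩ : Q.primeCompl)
  have hfzero : ∀ x : R, f x = 0 → ∃ s, s ∉ Q ∧ s * x = 0 := by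
    intro x hx
    obtain ⟨s, hs⟩ := (IsLocalization.map_eq_zero_iff Q.primeCompl O x).mp hx
    exact ⟨s, s.2, hs⟩
  have hsurj : ∀ z : O, ∃ x s : R, s ∉ Q ∧ z * f s = f x := by
    intro z
    obtain ⟨⟨x, s⟩, hxs⟩ := IsLocalization.surj Q.primeCompl z
    exact ⟨x, s, s.2, hxs⟩
  have hregO : ∀ x : O, (p : O) * x = 0 → x = 0 := by
    intro z hz
    obtain ⟨x, s, hs, hxs⟩ := hsurj z
    have h1 : f ((p : R) * x) = 0 := by
      rw [map_mul, map_natCast, ← hxs, ← mul_assoc, hz, zero_mul]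
    obtain ⟨t, ht, htx⟩ := hfzero _ h1
    have h2 : t * x = 0 := hreg _ (by rw [← htx]; ring)
    have h3 : f x = 0 := by
      have h4 : f t * f x = 0 := by rw [← map_mul, h2, map_zero]
      exact (hunit t ht).mul_right_eq_zero.mp h4
    rw [h3] at hxs
    exact (hunit s hs).mul_left_eq_zero.mp hxs
  have hmax : Ideal.span {(p : O)} = IsLocalRing.maximalIdeal O := by
    apply le_antisymm
    · rw [Ideal.span_singleton_le_iff_mem]
      have : f (p : R) ∈ Ideal.map (algebraMap R O) Q := Ideal.mem_map_of_mem _ hpQ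
      rw [Localization.AtPrime.map_eq_maximalIdeal, map_natCast] at this
      exact this
    · rw [← Localization.AtPrime.map_eq_maximalIdeal, Ideal.map_le_iff_le_comap]
      intro x hx
      rw [Ideal.mem_comap, Ideal.mem_span_singleton]
      obtain ⟨y, hy⟩ := hfrob x
      have h1 : x ^ (q - 1) - 1 ∉ Q := by
        intro h2
        have h3 : x ^ (q - 1) ∈ Q := Ideal.pow_mem_of_mem Q hx (q - 1) (by omega)
        have h4 : (1 : R) ∈ Q := by
          have := Q.sub_mem h3 h2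
          simpa using this
        exact hQ.ne_top ((Ideal.eq_top_iff_one Q).mpr h4)
      obtain ⟨v, hv⟩ := hunit _ h1
      have h2 : x * (x ^ (q - 1) - 1) = p * y := by
        rw [← hy, mul_sub, mul_one, ← pow_succ', show q - 1 + 1 = q by omega]
      have h3 : f x * (v : O) = p * f y := by
        rw [hv, ← map_mul, h2, map_mul, map_natCast]
      refine ⟨f y * ((v⁻¹ : Oˣ) : O), ?_⟩
      rw [← mul_assoc, ← h3, mul_assoc, Units.mul_inv, mul_one]
  have hprimeO : (Ideal.span {(p : O)}).IsPrime := by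
    rw [hmax]; infer_instance
  have h' : A.map f * B.map f ∈
      Ideal.span {(p : O[X]) ^ m, (X ^ (p ^ m) - 1 : O[X])} := by
    rw [Ideal.mem_span_pair] at h ⊢
    obtain ⟨U, V, hUV⟩ := h
    refine ⟨U.map f, V.map f, ?_⟩
    rw [← Polynomial.map_mul, ← hUV]
    simp
  have key := local_domain p hregO hprimeO m hm _ _ h'
  have hev : (B.map f).eval 1 = f (B.eval 1) := by
    rw [eval_map, ← map_one f, eval₂_at_apply]
  rw [hev] at key
  have hCO : ((p : O[X]) ^ m) = C ((p : O) ^ m) := by simp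
  rw [hCO] at key
  have hDO : (X ^ p - 1 : O[X]).Monic := monic_X_pow_sub_C (1 : O) hp.out.ne_zero
  have h2 := coeff_dvd_of_mem _ _ _ hDO key i
  have h3 : (A.map f * C (f (B.eval 1))) %ₘ (X ^ p - 1)
      = ((A * C (B.eval 1)) %ₘ (X ^ p - 1)).map f := by
    rw [map_modByMonic f hD]
    simp
  rw [h3, coeff_map, ← hc] at h2
  obtain ⟨z, hz⟩ := h2
  obtain ⟨x, s, hs, hxs⟩ := hsurj z
  have h4 : f (s * c - (p : R) ^ m * x) = 0 := by
    rw [map_sub, map_mul, map_mul, hz, map_pow, map_natCast, ← hxs]; ring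
  obtain ⟨t, ht, htx⟩ := hfzero _ h4
  have h5 : t * s ∈ I := by
    rw [hmemI]
    exact ⟨t * x, by linear_combination htx⟩
  rcases hQp.mem_or_mem (hIQ h5) with h6 | h6
  · exact ht h6
  · exact hs h6

end frob

end Vale.Agent.P033.CH
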