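import Vale.Agent.P033.CH.Base
import Vale.Agent.P033.CH.Local

/-!
# The `p`-local divisibility in the integral group ring of `ZMod M`
-/

namespace Vale.Agent.P033.CH

open Polynomial Finset

/-- The integral group ring of `ZMod M`. -/
abbrev Lam (M : ℕ) := AddMonoidAlgebra ℤ (ZMod M)

/-- The group element `[x]`. -/
noncomputable def gr {M : ℕ} (x : ZMod M) : Lam M := AddMonoidAlgebra.single x 1

theorem gr_zero {M : ℕ} : gr (0 : ZMod M) = 1 := rfl

theorem gr_add {M : ℕ} (x y : ZMod M) : gr (x + y) = gr x * gr y := by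
  simp [gr, AddMonoidAlgebra.single_mul_single]

theorem gr_pow {M : ℕ} (x : ZMod M) (k : ℕ) : gr x ^ k = gr ((k : ZMod M) * x) := by
  simp [gr, AddMonoidAlgebra.single_pow]

theorem gr_mul_neg {M : ℕ} (x : ZMod M) : gr x * gr (-x) = 1 := by
  rw [← gr_add]; simp [gr_zero]

theorem lam_reg {M : ℕ} {k : ℕ} (hk : k ≠ 0) (x : Lam M) (hx : (k : Lam M) * x = 0) : x = 0 := by
  have h1 : (k : ℕ) • x = 0 := by rw [nsmul_eq_mul]; exact hx
  have h2 : ∀ a, x.coeff a = 0 := by
    intro a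
    have h3 : ((k : ℕ) • x).coeff a = 0 := by rw [h1]; rfl
    rw [AddMonoidAlgebra.coeff_smul] at h3
    simpa [hk] using h3
  apply AddMonoidAlgebra.coeff_injective
  ext a
  simpa using h2 a

theorem lam_frob {M p : ℕ} [hp : Fact p.Prime] (k : ℕ) (hk : (p ^ k : ZMod M) = 1) (x : Lam M) :
    (p : Lam M) ∣ x ^ (p ^ k) - x := by
  induction x using AddMonoidAlgebra.induction_linear with
  | zero =>
    rw [zero_pow (pow_ne_zero _ hp.out.ne_zero)]; simp
  | add x y hx hy =>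
    obtain ⟨r, hr⟩ := exists_add_pow_prime_pow_eq hp.out x y k
    obtain ⟨s, hs⟩ := hx
    obtain ⟨t, ht⟩ := hy
    refine ⟨s + t + x * y * r, ?_⟩
    rw [hr]
    linear_combination hs + ht
  | single a c =>
    rw [AddMonoidAlgebra.single_pow]
    have h1 : (p ^ k) • a = a := by
      rw [nsmul_eq_mul]; push_cast; rw [hk, one_mul]
    rw [h1, ← AddMonoidAlgebra.single_sub]
    have h2 : (p : ℤ) ∣ c ^ (p ^ k) - c := by
      rw [← ZMod.intCast_zmod_eq_zero_iff_dvd] 
      push_cast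
      rw [ZMod.pow_card_pow, sub_self]
    obtain ⟨d, hd⟩ := h2
    refine ⟨AddMonoidAlgebra.single a d, ?_⟩
    have h3 : (p : Lam M) * AddMonoidAlgebra.single a d = AddMonoidAlgebra.single a ((p : ℤ) * d) := by
      rw [← nsmul_eq_mul, AddMonoidAlgebra.smul_single]
      simp
    rw [h3, hd]

/-- `K h x = ∑_{j<n} h_j [j x]`. -/
noncomputable def K {n M : ℕ} (h : ZMod n → ℤ) (x : ZMod M) : Lam M := aeval (gr x) (HP h)

theorem aeval_gr_HQ {n M : ℕ} [NeZero n] (hMn : M ∣ n) (h : ZMod n → ℤ) (x : ZMod M) :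
    aeval (gr x) (HQ h) = K h (-x) := by
  unfold HQ K HP
  rw [map_sum, map_sum]
  refine Finset.sum_congr rfl ?_
  intro j hj
  have hj' : j ≤ n := (Finset.mem_range.mp hj).le
  simp only [map_mul, aeval_C, map_pow, aeval_X]
  rw [gr_pow, gr_pow]
  congr 2
  rw [Nat.cast_sub hj']
  have : (n : ZMod M) = 0 := (ZMod.natCast_eq_zero_iff n M).mpr hMn
  rw [this]; ring

theorem gr_pow_n {n M : ℕ} (hMn : M ∣ n) (x : ZMod M) : gr x ^ n = 1 := by
  rw [gr_pow, (ZMod.natCast_eq_zero_iff n M).mpr hMn, zero_mul, gr_zero]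

theorem K_mul_K_neg {n M : ℕ} [NeZero n] (hMn : M ∣ n) (h : ZMod n → ℤ)
    (h1 : ∀ i, h i = 1 ∨ h i = -1)
    (hac : ∀ t : ZMod n, t ≠ 0 → ∑ j, h j * h (j + t) = 0) (x : ZMod M) :
    K h x * K h (-x) = (n : Lam M) := by
  rw [← aeval_gr_HQ hMn]
  exact aeval_HP_mul_HQ h h1 hac (gr x) (gr_pow_n hMn x)

/-- The `p`-local divisibility. -/
theorem lp_div {n M p M' m : ℕ} [NeZero n] [hp : Fact p.Prime]
    (hcop : p.Coprime M') (hM' : 1 < M') (hm : 1 ≤ m) (hpn : p ^ m ∣ n) (hM'n : M' ∣ n)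
    (hMn : M ∣ n) (h : ZMod n → ℤ)
    (h1 : ∀ i, h i = 1 ∨ h i = -1)
    (hac : ∀ t : ZMod n, t ≠ 0 → ∑ j, h j * h (j + t) = 0)
    (x y : ZMod M) (hy : (M' : ZMod M) * y = 0) (hz : (p : ZMod M) * (x - y) = 0) :
    ((p : Lam M) ^ m) ∣ K h x * K h (-y) := by
  classical
  -- the coefficient ring
  let R := Lam M'
  have : NeZero M' := ⟨by omega⟩
  let yy : R := gr (1 : ZMod M')
  set A : R[X] := aeval (C yy * X) (HP h) with hA
  set B : R[X] := aeval (C yy * X) (HQ h) with hB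
  have hyn : yy ^ n = 1 := gr_pow_n hM'n _
  have hdvd : (X ^ n - 1 : R[X]) ∣ A * B - (n : R[X]) := by
    obtain ⟨Q, hQ⟩ := dvd_HP_mul_HQ_sub h h1 hac
    refine ⟨aeval (C yy * X) Q, ?_⟩
    have := congrArg (aeval (C yy * X)) hQ
    simp only [map_sub, map_mul, map_pow, aeval_X, map_natCast, map_one] at this
    rw [mul_pow, ← C_pow, hyn, C_1, one_mul] at this
    exact this
  have hmem : A * B ∈ Ideal.span {(p : R[X]) ^ m, (X ^ (p ^ m) - 1 : R[X])} := by
    obtain ⟨c, hc⟩ := hpn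
    have h3 : (X ^ (p ^ m) - 1 : R[X]) ∣ X ^ n - 1 := by
      rw [hc, pow_mul]
      exact sub_one_dvd_pow_sub_one _ _ 
    obtain ⟨D, hD⟩ := h3.trans hdvd
    rw [Ideal.mem_span_pair]
    refine ⟨(c : R[X]), D, ?_⟩
    have : (n : R[X]) = (p : R[X]) ^ m * c := by rw [hc]; push_cast; ring
    rw [this] at hD
    linear_combination -hD
  -- Frobenius
  have hk : (p ^ (Nat.totient M') : ZMod M') = 1 := by
    have h8 := ZMod.pow_totient (ZMod.unitOfCoprime p hcop)
    have h9 := congrArg Units.val h8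
    rw [Units.val_pow_eq_pow_val, ZMod.coe_unitOfCoprime, Units.val_one] at h9
    exact h9
  have htot : 0 < Nat.totient M' := Nat.totient_pos.mpr (by omega)
  have key := local_frob p (fun x hx => lam_reg hp.out.ne_zero x hx) (p ^ (Nat.totient M'))
    (by
      calc 2 ≤ p := hp.out.two_le
        _ = p ^ 1 := (pow_one p).symm
        _ ≤ p ^ (Nat.totient M') := Nat.pow_le_pow_right hp.out.pos htot)
    (lam_frob _ hk) m hm A B hmem
  -- the evaluation homomorphism
  let φ : ZMod M' →+ ZMod M := ZMod.lift M' ⟨zmultiplesHom (ZMod M) y, by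
    simp [hy]⟩
  have hφ : φ 1 = y := by
    have := ZMod.lift_coe M' (⟨zmultiplesHom (ZMod M) y, by simp [hy]⟩ : {f : ℤ →+ ZMod M // f M' = 0}) 1
    simpa using this
  let f : R →+* Lam M := AddMonoidAlgebra.mapDomainRingHom ℤ φ
  have hf : f yy = gr y := by
    show AddMonoidAlgebra.mapDomainRingHom ℤ φ (AddMonoidAlgebra.single 1 1) = _
    simp [hφ, gr]
  let ψ : R[X] →+* Lam M := eval₂RingHom f (gr (x - y))
  have hψC : ∀ r, ψ (C r) = f r := by intro r; simp [ψ]
  have hψX : ψ X = gr (x - y) := by simp [ψ]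
  have hψA : ψ A = K h x := by
    have h4 : ψ A = aeval (ψ (C yy * X)) (HP h) := by
      rw [hA]
      exact (Polynomial.hom_eval₂ _ _ _ _).trans (by
        rw [aeval_def]; congr 1; exact Subsingleton.elim _ _)
    rw [h4, map_mul, hψC, hψX, hf, ← gr_add]
    rw [show y + (x - y) = x by ring]
    rfl
  have hfB : ψ (C (B.eval 1)) = K h (-y) := by
    have h5 : B.eval 1 = aeval yy (HQ h) := by
      rw [hB]
      have : (evalRingHom (1 : R)) (aeval (C yy * X) (HQ h)) = aeval ((evalRingHom (1 : R)) (C yy * X)) (HQ h) :=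
        (Polynomial.hom_eval₂ _ _ _ _).trans (by
        rw [aeval_def]; congr 1; exact Subsingleton.elim _ _)
      simpa using this
    rw [hψC, h5]
    have h6 : f (aeval yy (HQ h)) = aeval (f yy) (HQ h) :=
      (Polynomial.hom_eval₂ _ _ _ _).trans (by
        rw [aeval_def]; congr 1; exact Subsingleton.elim _ _)
    rw [h6, hf, aeval_gr_HQ hMn]
  rw [Ideal.mem_span_pair] at key
  obtain ⟨U, V, hUV⟩ := key
  have h7 := congrArg ψ hUV
  rw [map_add, map_mul, map_mul, map_mul, map_sub, map_pow, map_pow, map_natCast, map_one, hψX,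
    hψA, hfB, gr_pow, hz, gr_zero, sub_self, mul_zero, add_zero] at h7
  exact ⟨ψ U, by rw [← h7]; ring⟩

end Vale.Agent.P033.CH
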