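import Vale.Agent.P033.CH.Lp
import Vale.Agent.P033.CH.Idem

/-!
# The product over the idempotents, and its divisibility by odd primes
-/

namespace Vale.Agent.P033.CH

open Finset

variable {M : ℕ}

/-- The product `E_L(x)`, defined by `E_[](x) = K x`, `E_{p::L}(x) = E_L(x) E_L(-e_p x)`. -/
noncomputable def EL (K : ZMod M → Lam M) (e : ℕ → ZMod M) : List ℕ → ZMod M → Lam M
  | [], x => K x
  | p :: L, x => EL K e L x * EL K e L (-(e p * x))

/-- Multiplication by `y` on the group, as a ring endomorphism of the group ring. -/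
noncomputable def mulMap (y : ZMod M) : Lam M →+* Lam M :=
  AddMonoidAlgebra.mapDomainRingHom ℤ (AddMonoidHom.mulLeft y)

theorem mulMap_single (y x : ZMod M) (c : ℤ) :
    mulMap y (AddMonoidAlgebra.single x c) = AddMonoidAlgebra.single (y * x) c := by
  simp [mulMap]

theorem mulMap_gr (y x : ZMod M) : mulMap y (gr x) = gr (y * x) := mulMap_single y x 1

theorem mulMap_aeval (y x : ZMod M) (Q : Polynomial ℤ) :
    mulMap y (Polynomial.aeval (gr x) Q) = Polynomial.aeval (gr (y * x)) Q := by
  rw [← mulMap_gr]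
  exact (Polynomial.hom_eval₂ _ _ _ _).trans (by
    rw [Polynomial.aeval_def]; congr 1; exact Subsingleton.elim _ _)

theorem mulMap_EL {K : ZMod M → Lam M} (hK : ∀ y x, mulMap y (K x) = K (y * x))
    (e : ℕ → ZMod M) (L : List ℕ) (y x : ZMod M) :
    mulMap y (EL K e L x) = EL K e L (y * x) := by
  induction L generalizing x with
  | nil => exact hK y x
  | cons p L ih =>
    simp only [EL, map_mul, ih]
    congr 2; ring

/-- `E_L(x) E_L(-x) = n^(2^|L|)`. -/
theorem EL_mul_neg {K : ZMod M → Lam M} {N : Lam M} (hK : ∀ x, K x * K (-x) = N)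
    (e : ℕ → ZMod M) (L : List ℕ) (x : ZMod M) :
    EL K e L x * EL K e L (-x) = N ^ (2 ^ L.length) := by
  induction L generalizing x with
  | nil => simpa [EL] using hK x
  | cons p L ih =>
    simp only [EL, List.length_cons]
    have h1 := ih x
    have h2 := ih (-(e p * x))
    rw [show -(e p * -x) = -(-(e p * x)) by ring]
    rw [pow_succ 2, mul_comm _ 2, two_mul, pow_add]
    nth_rewrite 1 [← h1]
    rw [← h2]
    ring

/-- `E_L(e_p x) = n^(2^(|L|-1))` for `p` in `L`. -/
theorem EL_idem {K : ZMod M → Lam M} {N : Lam M} (hK : ∀ x, K x * K (-x) = N)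
    (e : ℕ → ZMod M) (p : ℕ) (hid : e p * e p = e p) (L : List ℕ) (hp : p ∈ L) (x : ZMod M) :
    EL K e L (e p * x) = N ^ (2 ^ (L.length - 1)) := by
  induction L generalizing x with
  | nil => simp at hp
  | cons q L ih =>
    simp only [EL, List.length_cons, Nat.add_sub_cancel]
    by_cases hqp : p = q
    · subst hqp
      rw [show -(e p * (e p * x)) = -(e p * x) by rw [← mul_assoc, hid]]
      exact EL_mul_neg hK e L _
    · have hp' : p ∈ L := by
        rcases List.mem_cons.mp hp with h | h
        · exact absurd h hqp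
        · exact h
      have hlen : 0 < L.length := List.length_pos_of_mem hp'
      rw [show -(e q * (e p * x)) = e p * (-(e q * x)) by ring, ih hp', ih hp', ← pow_add,
        ← two_mul, ← pow_succ']
      congr 2
      omega

/-- Divisibility of `E_L(x) E_L(-e_p x)`. -/
theorem EL_dvd_mul {K : ZMod M → Lam M} (e : ℕ → ZMod M) (p : ℕ) (c : Lam M)
    (hc : ∀ x, c ∣ K x * K (-(e p * x))) (L : List ℕ) (x : ZMod M) :
    c ^ (2 ^ L.length) ∣ EL K e L x * EL K e L (-(e p * x)) := by
  induction L generalizing x with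
  | nil => simpa [EL] using hc x
  | cons q L ih =>
    simp only [EL, List.length_cons]
    have h1 := mul_dvd_mul (ih x) (ih (-(e q * x)))
    rw [pow_succ 2, mul_comm _ 2, two_mul, pow_add]
    refine h1.trans (dvd_of_eq ?_)
    rw [show -(e q * -(e p * x)) = -(e p * -(e q * x)) by ring]
    ring

/-- Divisibility of `E_L(x)` for `p` in `L`. -/
theorem EL_dvd {K : ZMod M → Lam M} (e : ℕ → ZMod M) (p : ℕ) (c : Lam M)
    (hc : ∀ x, c ∣ K x * K (-(e p * x))) (L : List ℕ) (hp : p ∈ L) (x : ZMod M) :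
    c ^ (2 ^ (L.length - 1)) ∣ EL K e L x := by
  induction L generalizing x with
  | nil => simp at hp
  | cons q L ih =>
    simp only [EL, List.length_cons, Nat.add_sub_cancel]
    by_cases hqp : p = q
    · subst hqp
      exact EL_dvd_mul e p c hc L x
    · have hp' : p ∈ L := by
        rcases List.mem_cons.mp hp with h | h
        · exact absurd h hqp
        · exact h
      have hlen : 0 < L.length := List.length_pos_of_mem hp'
      have h1 := mul_dvd_mul (ih hp' x) (ih hp' (-(e q * x)))
      rw [← pow_add, ← two_mul, ← pow_succ'] at h1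
      have : L.length - 1 + 1 = L.length := by omega
      rw [this] at h1
      exact h1

/-! ### The element `N_p` -/

/-- `N_p = ∑_{i<p} [i (1 - e_p)]`. -/
noncomputable def Np (e : ℕ → ZMod M) (p : ℕ) : Lam M :=
  ∑ i ∈ range p, gr ((i : ZMod M) * (1 - e p))

theorem gr_mul_sum {d : ZMod M} {p : ℕ} (hd : (p : ZMod M) * d = 0) :
    gr d * ∑ i ∈ range p, gr ((i : ZMod M) * d) = ∑ i ∈ range p, gr ((i : ZMod M) * d) := by
  have h1 : gr d * ∑ i ∈ range p, gr ((i : ZMod M) * d)
      = ∑ i ∈ range p, gr (((i + 1 : ℕ) : ZMod M) * d) := by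
    rw [Finset.mul_sum]
    refine Finset.sum_congr rfl ?_
    intro i _
    rw [← gr_add]; congr 1; push_cast; ring
  rw [h1]
  have h2 := Finset.sum_range_succ (fun i : ℕ => gr ((i : ZMod M) * d)) p
  have h3 := Finset.sum_range_succ' (fun i : ℕ => gr ((i : ZMod M) * d)) p
  rw [h2] at h3
  have h4 : gr ((p : ZMod M) * d) = gr (((0 : ℕ) : ZMod M) * d) := by rw [hd]; simp
  rw [h4] at h3
  exact (add_right_cancel h3).symm

theorem gr_mul_mul_sum {d : ZMod M} {p : ℕ} (hd : (p : ZMod M) * d = 0) (m : ℕ) :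
    gr ((m : ZMod M) * d) * ∑ i ∈ range p, gr ((i : ZMod M) * d)
      = ∑ i ∈ range p, gr ((i : ZMod M) * d) := by
  induction m with
  | zero => simp [gr_zero]
  | succ m ih =>
    have : (((m + 1 : ℕ) : ZMod M) * d) = (m : ZMod M) * d + d := by push_cast; ring
    rw [this, gr_add, mul_assoc, gr_mul_sum hd, ih]

theorem mul_Np [NeZero M] {e : ℕ → ZMod M} {p : ℕ} (hp : (p : ZMod M) * (1 - e p) = 0)
    (z : Lam M) : z * Np e p = mulMap (e p) z * Np e p := by
  induction z using AddMonoidAlgebra.induction_linear with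
  | zero => simp
  | add x y hx hy => rw [add_mul, hx, hy, map_add, add_mul]
  | single a c =>
    rw [mulMap_single]
    have h1 : ∀ b : ZMod M, (AddMonoidAlgebra.single b c : Lam M) = AddMonoidAlgebra.single 0 c * gr b := by
      intro b; simp [gr, AddMonoidAlgebra.single_mul_single]
    rw [h1 a, h1 (e p * a), mul_assoc, mul_assoc]
    congr 1
    have h2 : a = e p * a + ((a.val : ℕ) : ZMod M) * (1 - e p) := by
      rw [ZMod.natCast_zmod_val]; ring
    have h3 : gr a = gr (e p * a) * gr (((a.val : ℕ) : ZMod M) * (1 - e p)) := by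
      rw [← gr_add, ← h2]
    rw [h3, mul_assoc]
    unfold Np
    rw [gr_mul_mul_sum hp]

/-- `φ = ∏_{p ∈ P} (p - N_p)`. -/
noncomputable def Phi (e : ℕ → ZMod M) (P : Finset ℕ) : Lam M := ∏ p ∈ P, ((p : Lam M) - Np e p)

theorem mul_Phi_of_ann {e : ℕ → ZMod M} (P : Finset ℕ) (z : Lam M)
    (hz : ∀ p ∈ P, z * Np e p = 0) : z * Phi e P = z * ((∏ p ∈ P, p : ℕ) : Lam M) := by
  classical
  induction P using Finset.induction_on with
  | empty => simp [Phi]
  | insert a s ha ih =>
    have h1 := ih (fun p hp => hz p (Finset.mem_insert_of_mem hp))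
    have h2 := hz a (Finset.mem_insert_self a s)
    unfold Phi at h1 ⊢
    rw [Finset.prod_insert ha, Finset.prod_insert ha]
    push_cast at h1 ⊢
    calc z * (((a : Lam M) - Np e a) * ∏ p ∈ s, ((p : Lam M) - Np e p))
        = (z * a - z * Np e a) * ∏ p ∈ s, ((p : Lam M) - Np e p) := by ring
      _ = a * (z * ∏ p ∈ s, ((p : Lam M) - Np e p)) := by rw [h2]; ring
      _ = _ := by rw [h1]; ring

end Vale.Agent.P033.CH
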