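import Mathlib

namespace Vale.Agent.P033.CH

open Finset

/-- Autocorrelation of a push-forward along a homomorphism of finite abelian groups. -/
theorem turyn_proj {G H : Type*} [AddCommGroup G] [Fintype G] [AddCommGroup H]
    [Fintype H] [DecidableEq H] (π : G →+ H) (f : G → ℤ) (t : H) :
    ∑ y, (∑ x, if π x = y then f x else 0) * (∑ x, if π x = y + t then f x else 0) =
      ∑ t', if π t' = t then ∑ x, f x * f (x + t') else 0 := by
  have key : ∀ x : G, (∑ x', if π x' = π x + t then f x' else 0) =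
      ∑ t', if π t' = t then f (x + t') else 0 := by
    intro x
    rw [← Equiv.sum_comp (Equiv.addLeft x)]
    refine Finset.sum_congr rfl fun t' _ => ?_
    simp only [Equiv.coe_addLeft, map_add, add_right_inj]
  calc ∑ y, (∑ x, if π x = y then f x else 0) * (∑ x, if π x = y + t then f x else 0)
      = ∑ y, ∑ x, (if π x = y then f x * (∑ x', if π x' = y + t then f x' else 0) else 0) := by
        refine Finset.sum_congr rfl fun y _ => ?_
        rw [Finset.sum_mul]
        refine Finset.sum_congr rfl fun x _ => ?_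
        split_ifs <;> simp
    _ = ∑ x, f x * (∑ x', if π x' = π x + t then f x' else 0) := by
        rw [Finset.sum_comm]
        refine Finset.sum_congr rfl fun x _ => ?_
        simp
    _ = ∑ x, ∑ t', (if π t' = t then f x * f (x + t') else 0) := by
        refine Finset.sum_congr rfl fun x _ => ?_
        rw [key, Finset.mul_sum]
        refine Finset.sum_congr rfl fun t' _ => ?_
        split_ifs <;> simp
    _ = _ := by
        rw [Finset.sum_comm]
        refine Finset.sum_congr rfl fun t' _ => ?_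
        split_ifs <;> simp

/-- sum over all shifts of the autocorrelation is the square of the sum -/
theorem turyn_sum_sq {G : Type*} [AddCommGroup G] [Fintype G] {S : Type*} [CommRing S]
    (f : G → S) : (∑ x, f x) ^ 2 = ∑ t, ∑ x, f x * f (x + t) := by
  rw [Finset.sum_comm, sq, Finset.sum_mul]
  refine Finset.sum_congr rfl fun x _ => ?_
  rw [← Finset.mul_sum]
  congr 1
  exact (Equiv.sum_comp (Equiv.addLeft x) f).symm

theorem order_shape {n : ℕ} [NeZero n] (hn1 : n ≠ 1) (h : ZMod n → ℤ)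
    (h1 : ∀ i, h i = 1 ∨ h i = -1)
    (hac : ∀ t : ZMod n, t ≠ 0 → ∑ j, h j * h (j + t) = 0) : ∃ v : ℕ, n = 4 * v ^ 2 := by
  have hn0 : n ≠ 0 := NeZero.ne n
  have hsq : (∑ x, h x) ^ 2 = n := by
    rw [turyn_sum_sq, Finset.sum_eq_single (0 : ZMod n)]
    · have : ∀ x : ZMod n, h x * h (x + 0) = 1 := by
        intro x
        rcases h1 x with hx | hx <;> simp [hx]
      rw [Finset.sum_congr rfl fun x _ => this x]
      simp [ZMod.card]
    · intro t _ ht
      exact hac t ht
    · simp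
  have heven : Even (n : ℤ) := by
    have h10 : (1 : ZMod n) ≠ 0 := by
      intro hh
      have : Subsingleton (ZMod n) := subsingleton_of_zero_eq_one hh.symm
      have h2 := Fintype.card_le_one_iff_subsingleton.mpr this
      rw [ZMod.card] at h2
      omega
    have h2 := hac 1 h10
    have h3 : (2 : ℤ) ∣ (∑ j : ZMod n, h j * h (j + 1)) - ∑ j : ZMod n, (1 : ℤ) := by
      rw [← Finset.sum_sub_distrib]
      refine Finset.dvd_sum fun j _ => ?_
      rcases h1 j with hj | hj <;> rcases h1 (j + 1) with hk | hk <;> simp [hj, hk]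
    rw [h2] at h3
    simp only [Finset.sum_const, Finset.card_univ, ZMod.card] at h3
    rw [even_iff_two_dvd]
    have := (dvd_neg).mpr h3
    simpa using this
  obtain ⟨w, hw⟩ : Even (∑ x, h x) := by
    have : Even ((∑ x, h x) ^ 2) := by rw [hsq]; exact heven
    exact (Int.even_pow.mp this).1
  refine ⟨w.natAbs, ?_⟩
  zify
  rw [← hsq, hw, sq_abs]
  ring

/-- If every element of `R` is a multiple of `T` or a unit, `σ` fixes `T` up to a unit and
`T ^ (2 * L) = 0`, then `C * σ C = 0` forces `C * T ^ L = 0`. -/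
theorem turyn_abs {R : Type*} [CommRing R] (σ : R →+* R) (T u : R) (hu : IsUnit u)
    (hσ : σ T = u * T) (L : ℕ) (hT : T ^ (2 * L) = 0) (hloc : ∀ D : R, T ∣ D ∨ IsUnit D)
    (C : R) (hC : C * σ C = 0) : C * T ^ L = 0 := by
  have key : ∀ j, j ≤ L → (T ^ j ∣ C) ∨ C * T ^ L = 0 := by
    intro j
    induction j with
    | zero => intro _; left; simp
    | succ j ih =>
      intro hj
      rcases ih (by omega) with hd | hz
      · obtain ⟨D, hD⟩ := hd
        rcases hloc D with hTD | hUD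
        · left
          obtain ⟨E, hE⟩ := hTD
          exact ⟨E, by rw [hD, hE]; ring⟩
        · right
          have h1 : T ^ (2 * j) = 0 := by
            have h2 : T ^ (2 * j) * (D * σ D * u ^ j) = 0 := by
              calc T ^ (2 * j) * (D * σ D * u ^ j)
                  = (T ^ j * D) * ((u * T) ^ j * σ D) := by ring
                _ = C * σ C := by rw [hD, map_mul, map_pow, hσ]
                _ = 0 := hC
            have h3 : IsUnit (D * σ D * u ^ j) := (hUD.mul (hUD.map σ)).mul (hu.pow j)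
            exact (h3.mul_left_eq_zero).mp h2
          have h4 : C * T ^ L = T ^ (2 * j) * (T ^ (L - j) * D) := by
            rw [hD]
            have : T ^ L = T ^ j * T ^ (L - j) := by rw [← pow_add]; congr 1; omega
            rw [this]; ring
          rw [h4, h1, zero_mul]
      · exact Or.inr hz
  rcases key L le_rfl with hd | hz
  · obtain ⟨D, hD⟩ := hd
    rw [hD]
    calc T ^ L * D * T ^ L = T ^ (2 * L) * D := by ring
      _ = 0 := by rw [hT, zero_mul]
  · exact hz


/-- every element of a group algebra of a finite cyclic group is a constant modulo `g - 1` -/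
theorem turyn_aug {N : ℕ} [NeZero N] {k : Type*} [CommRing k]
    (D : AddMonoidAlgebra k (ZMod N)) :
    ∃ a : k, (AddMonoidAlgebra.single (1 : ZMod N) (1 : k) - 1) ∣
      D - AddMonoidAlgebra.single 0 a := by
  induction D using AddMonoidAlgebra.induction_linear with
  | zero => exact ⟨0, by simp⟩
  | add x y hx hy =>
    obtain ⟨a, ha⟩ := hx
    obtain ⟨b, hb⟩ := hy
    refine ⟨a + b, ?_⟩
    rw [AddMonoidAlgebra.single_add, add_sub_add_comm]
    exact dvd_add ha hb
  | single x r =>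
    refine ⟨r, ?_⟩
    have h1 : AddMonoidAlgebra.single x r =
        AddMonoidAlgebra.single (1 : ZMod N) (1 : k) ^ x.val * AddMonoidAlgebra.single 0 r := by
      rw [AddMonoidAlgebra.single_pow, AddMonoidAlgebra.single_mul_single]
      simp
    have h2 : AddMonoidAlgebra.single x r - AddMonoidAlgebra.single (0 : ZMod N) r =
        (AddMonoidAlgebra.single (1 : ZMod N) (1 : k) ^ x.val - 1 ^ x.val) *
          AddMonoidAlgebra.single 0 r := by
      rw [h1]; ring
    rw [h2]
    exact Dvd.dvd.mul_right (sub_dvd_pow_sub_pow _ _ _) _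

/-- the function `c`, seen in the group algebra, has product with its reflection given by
the autocorrelations -/
theorem turyn_mul_reflect {G : Type*} [AddCommGroup G] [Fintype G] {k : Type*} [CommRing k]
    (c : G → k) :
    (∑ x, AddMonoidAlgebra.single x (c x)) *
      AddMonoidAlgebra.mapDomainRingHom k (negAddMonoidHom : G →+ G)
        (∑ x, AddMonoidAlgebra.single x (c x)) =
      ∑ t, AddMonoidAlgebra.single (-t) (∑ x, c x * c (x + t)) := by
  have h1 : AddMonoidAlgebra.mapDomainRingHom k (negAddMonoidHom : G →+ G)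
        (∑ x, AddMonoidAlgebra.single x (c x)) =
        ∑ x, AddMonoidAlgebra.single (-x) (c x) := by
    rw [map_sum]
    refine Finset.sum_congr rfl fun x _ => ?_
    simp
  have h2 : ∀ t, AddMonoidAlgebra.single (-t) (∑ x, c x * c (x + t)) =
      ∑ x, AddMonoidAlgebra.single (-t) (c x * c (x + t)) := by
    intro t
    exact map_sum (AddMonoidAlgebra.singleAddHom (-t)) _ _
  rw [h1, Finset.sum_mul]
  simp only [h2]
  rw [Finset.sum_comm]
  refine Finset.sum_congr rfl fun x _ => ?_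
  rw [Finset.mul_sum, ← Equiv.sum_comp (Equiv.addLeft x)]
  refine Finset.sum_congr rfl fun t _ => ?_
  rw [AddMonoidAlgebra.single_mul_single]
  simp

/-- A function on `ZMod (2 ^ (m + 1))` with values in `ZMod 2` and zero autocorrelation has
period `2 ^ m`. -/
theorem turyn_periodic (m : ℕ) (c : ZMod (2 ^ (m + 1)) → ZMod 2)
    (hc : ∀ t, ∑ x, c x * c (x + t) = 0) (x : ZMod (2 ^ (m + 1))) :
    c (x + ((2 ^ m : ℕ) : ZMod (2 ^ (m + 1)))) = c x := by
  have h2 : (2 : AddMonoidAlgebra (ZMod 2) (ZMod (2 ^ (m + 1)))) = 0 := by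
    have : (2 : AddMonoidAlgebra (ZMod 2) (ZMod (2 ^ (m + 1)))) =
      AddMonoidAlgebra.single 0 (2 : ZMod 2) := rfl
    rw [this, show (2 : ZMod 2) = 0 from rfl, AddMonoidAlgebra.single_zero]
  have : CharP (AddMonoidAlgebra (ZMod 2) (ZMod (2 ^ (m + 1)))) 2 :=
    CharTwo.of_one_ne_zero_of_two_eq_zero one_ne_zero h2
  obtain ⟨g, hg⟩ : ∃ g : AddMonoidAlgebra (ZMod 2) (ZMod (2 ^ (m + 1))),
    g = AddMonoidAlgebra.single 1 1 := ⟨_, rfl⟩
  have hgpow : ∀ k : ℕ, g ^ k =
      AddMonoidAlgebra.single ((k : ℕ) : ZMod (2 ^ (m + 1))) 1 := by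
    intro k
    rw [hg, AddMonoidAlgebra.single_pow]
    simp
  have hTpow : ∀ k : ℕ, (g - 1) ^ (2 ^ k) =
      AddMonoidAlgebra.single (((2 ^ k : ℕ) : ℕ) : ZMod (2 ^ (m + 1))) 1 - 1 := by
    intro k
    rw [sub_pow_char_pow, hgpow, one_pow]
  have hT : (g - 1) ^ (2 * 2 ^ m) = 0 := by
    rw [← pow_succ', hTpow, ZMod.natCast_self, ← AddMonoidAlgebra.one_def, sub_self]
  obtain ⟨σ, hσd⟩ : ∃ σ : AddMonoidAlgebra (ZMod 2) (ZMod (2 ^ (m + 1))) →+*
    AddMonoidAlgebra (ZMod 2) (ZMod (2 ^ (m + 1))),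
    σ = AddMonoidAlgebra.mapDomainRingHom (ZMod 2)
      (negAddMonoidHom : ZMod (2 ^ (m + 1)) →+ ZMod (2 ^ (m + 1))) := ⟨_, rfl⟩
  have hgg : σ g * g = 1 := by
    rw [hσd, hg]
    simp [AddMonoidAlgebra.single_mul_single, AddMonoidAlgebra.one_def]
  have hloc : ∀ D : AddMonoidAlgebra (ZMod 2) (ZMod (2 ^ (m + 1))),
      (g - 1) ∣ D ∨ IsUnit D := by
    intro D
    obtain ⟨a, ha⟩ := turyn_aug D
    rw [← hg] at ha
    have ha2 : a = 0 ∨ a = 1 := (by decide : ∀ b : ZMod 2, b = 0 ∨ b = 1) a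
    rcases ha2 with rfl | rfl
    · left; simpa using ha
    · right
      obtain ⟨E, hE⟩ := ha
      rw [← AddMonoidAlgebra.one_def] at hE
      have hD : D = 1 + (g - 1) * E := by rw [← hE]; ring
      rw [hD]
      apply IsNilpotent.isUnit_one_add
      exact ⟨2 * 2 ^ m, by rw [mul_pow, hT, zero_mul]⟩
  have hmain := turyn_abs σ (g - 1) (-σ g) ((IsUnit.of_mul_eq_one _ hgg).neg)
    (by rw [map_sub, map_one]; linear_combination hgg) (2 ^ m) hT hloc
    (∑ x, AddMonoidAlgebra.single x (c x)) (by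
      rw [hσd, turyn_mul_reflect]
      simp [hc])
  rw [hTpow, mul_sub, mul_one, sub_eq_zero] at hmain
  have h3 := congrArg (fun z => z.coeff (x + ((2 ^ m : ℕ) : ZMod (2 ^ (m + 1))))) hmain
  simp only [AddMonoidAlgebra.coeff_mul_single_add, mul_one] at h3
  have h4 : ∀ y : ZMod (2 ^ (m + 1)),
      (∑ x, AddMonoidAlgebra.single x (c x)).coeff y = c y := by
    intro y
    rw [AddMonoidAlgebra.coeff_sum, Finsupp.finsetSum_apply]
    simp [AddMonoidAlgebra.coeff_single, Finsupp.single_apply]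
  rw [h4, h4] at h3
  exact h3.symm


/-- the two elements of `ZMod (2 ^ (m + 1))` over an element of `ZMod (2 ^ m)` -/
theorem turyn_fibre (m : ℕ) (y : ZMod (2 ^ m)) : ∃ x0 : ZMod (2 ^ (m + 1)),
    ∀ f : ZMod (2 ^ (m + 1)) → ℤ,
      (∑ x, if (ZMod.castHom (pow_dvd_pow 2 (Nat.le_succ m)) (ZMod (2 ^ m)) :
          ZMod (2 ^ (m + 1)) →+* ZMod (2 ^ m)).toAddMonoidHom x = y then f x else 0) =
        f x0 + f (x0 + ((2 ^ m : ℕ) : ZMod (2 ^ (m + 1)))) := by
  obtain ⟨π, hπ⟩ : ∃ π : ZMod (2 ^ (m + 1)) →+* ZMod (2 ^ m),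
    π = ZMod.castHom (pow_dvd_pow 2 (Nat.le_succ m)) (ZMod (2 ^ m)) := ⟨_, rfl⟩
  rw [← hπ]
  obtain ⟨x0, hx0⟩ := ZMod.ringHom_surjective π y
  refine ⟨x0, fun f => ?_⟩
  have hker : ∀ z : ZMod (2 ^ (m + 1)), π z = 0 → z = 0 ∨
      z = ((2 ^ m : ℕ) : ZMod (2 ^ (m + 1))) := by
    intro z hz
    have h1 : π z = ((z.val : ℕ) : ZMod (2 ^ m)) := by
      conv_lhs => rw [← ZMod.natCast_zmod_val z]
      rw [map_natCast]
    rw [h1, ZMod.natCast_eq_zero_iff] at hz
    obtain ⟨k, hk⟩ := hz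
    have h2 : z.val < 2 ^ (m + 1) := ZMod.val_lt z
    rw [hk, pow_succ] at h2
    have h3 : k < 2 := Nat.lt_of_mul_lt_mul_left h2
    have h4 : z = ((2 ^ m * k : ℕ) : ZMod (2 ^ (m + 1))) := by
      rw [← hk, ZMod.natCast_zmod_val]
    interval_cases k
    · left; rw [h4]; simp
    · right; rw [h4, mul_one]
  have hne : ((2 ^ m : ℕ) : ZMod (2 ^ (m + 1))) ≠ 0 := by
    rw [Ne, ZMod.natCast_eq_zero_iff]
    intro h
    have := Nat.le_of_dvd (by positivity) h
    rw [pow_succ] at this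
    have h5 : 0 < 2 ^ m := by positivity
    omega
  have hiff : ∀ x, π x = y ↔ x = x0 ∨ x = x0 + ((2 ^ m : ℕ) : ZMod (2 ^ (m + 1))) := by
    intro x
    constructor
    · intro hx
      rcases hker (x - x0) (by rw [map_sub, hx, hx0, sub_self]) with h | h
      · left; exact sub_eq_zero.mp h
      · right; rw [← h]; ring
    · rintro (rfl | rfl)
      · exact hx0
      · rw [map_add, map_natCast, ZMod.natCast_self, add_zero, hx0]
  have hset : (Finset.univ.filter fun x => π.toAddMonoidHom x = y) =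
      {x0, x0 + ((2 ^ m : ℕ) : ZMod (2 ^ (m + 1)))} := by
    ext x
    simp only [Finset.mem_filter, Finset.mem_univ, true_and, Finset.mem_insert,
      Finset.mem_singleton]
    exact hiff x
  rw [← Finset.sum_filter, hset, Finset.sum_pair]
  intro h
  exact hne (by simpa using h.symm)

/-- one descent step -/
theorem turyn_step (m : ℕ) (hm : 2 ≤ m) (w : ℤ) (A : ZMod (2 ^ (m + 1)) → ℤ)
    (hodd : ∀ x, Odd (A x))
    (hac : ∀ t, ∑ x, A x * A (x + t) = if t = 0 then 4 * (4 * w) else 0) :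
    ∃ B : ZMod (2 ^ m) → ℤ, (∀ y, Odd (B y)) ∧
      ∀ t, ∑ y, B y * B (y + t) = if t = 0 then 4 * w else 0 := by
  choose c hc using hodd
  have h8 : (8 : ℤ) ∣ 2 ^ (m + 1) := by
    obtain ⟨k, hk⟩ := Nat.exists_eq_add_of_le hm
    exact ⟨2 ^ k, by rw [hk]; ring⟩
  -- autocorrelations of `c`
  have h1 : ∀ t, (2 : ℤ) ∣ ∑ x, c x + ∑ x, c x * c (x + t) := by
    intro t
    have e1 : ∑ x, A x * A (x + t) = 2 ^ (m + 1) + 4 * (∑ x, c x + ∑ x, c x * c (x + t)) := by
      have e2 : ∑ x, c (x + t) = ∑ x, c x := Equiv.sum_comp (Equiv.addRight t) c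
      have e3 : ∀ x, A x * A (x + t) = 1 + 2 * c x + 2 * c (x + t) + 4 * (c x * c (x + t)) := by
        intro x
        rw [hc x, hc (x + t)]
        ring
      rw [Finset.sum_congr rfl fun x _ => e3 x]
      rw [Finset.sum_add_distrib, Finset.sum_add_distrib, Finset.sum_add_distrib,
        ← Finset.mul_sum, ← Finset.mul_sum, ← Finset.mul_sum, e2]
      simp only [Finset.sum_const, Finset.card_univ, ZMod.card]
      ring
    have e4 : (8 : ℤ) ∣ ∑ x, A x * A (x + t) := by
      rw [hac t]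
      split_ifs
      · exact ⟨2 * w, by ring⟩
      · exact dvd_zero _
    rw [e1] at e4
    have e5 := (Int.dvd_add_right h8).mp e4
    omega
  have h2 : ∀ t, ∑ x, (c x : ZMod 2) * (c (x + t) : ZMod 2) = ∑ x, (c x : ZMod 2) := by
    intro t
    have e1 := (ZMod.intCast_zmod_eq_zero_iff_dvd _ 2).mpr (h1 t)
    push_cast at e1
    rw [add_comm, CharTwo.add_eq_zero] at e1
    exact e1
  have h3 : ∑ x, (c x : ZMod 2) = 0 := by
    have e1 := turyn_sum_sq (fun x => (c x : ZMod 2))
    simp only [h2] at e1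
    have e2 : ((2 ^ (m + 1) : ℕ) : ZMod 2) = 0 := by
      rw [ZMod.natCast_eq_zero_iff, pow_succ]
      exact dvd_mul_left _ _
    rw [Finset.sum_const, Finset.card_univ, ZMod.card, nsmul_eq_mul, e2, zero_mul] at e1
    exact pow_eq_zero_iff (two_ne_zero) |>.mp e1
  have h4 : ∀ x, (c (x + ((2 ^ m : ℕ) : ZMod (2 ^ (m + 1)))) : ZMod 2) = (c x : ZMod 2) :=
    turyn_periodic m (fun x => (c x : ZMod 2)) (fun t => by rw [h2, h3])
  have h5 : ∀ y : ZMod (2 ^ m), ∃ b : ℤ, Odd b ∧
      (∑ x, if (ZMod.castHom (pow_dvd_pow 2 (Nat.le_succ m)) (ZMod (2 ^ m)) :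
          ZMod (2 ^ (m + 1)) →+* ZMod (2 ^ m)).toAddMonoidHom x = y then A x else 0) =
        2 * b := by
    intro y
    obtain ⟨x0, hx0⟩ := turyn_fibre m y
    have e1 := hx0 A
    obtain ⟨k, hk⟩ : (2 : ℤ) ∣ c (x0 + ((2 ^ m : ℕ) : ZMod (2 ^ (m + 1)))) - c x0 := by
      refine (ZMod.intCast_zmod_eq_zero_iff_dvd _ 2).mp ?_
      push_cast
      rw [sub_eq_zero]
      exact_mod_cast h4 x0
    refine ⟨1 + 2 * c x0 + 2 * k, ⟨c x0 + k, by ring⟩, ?_⟩
    rw [e1, hc x0, hc (x0 + _)]
    linear_combination 2 * hk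
  choose B hBodd hB using h5
  refine ⟨B, hBodd, fun t => ?_⟩
  have e1 := turyn_proj ((ZMod.castHom (pow_dvd_pow 2 (Nat.le_succ m)) (ZMod (2 ^ m)) :
          ZMod (2 ^ (m + 1)) →+* ZMod (2 ^ m)).toAddMonoidHom) A t
  simp only [hB, hac] at e1
  have e2 : ∑ y, 2 * B y * (2 * B (y + t)) = 4 * ∑ y, B y * B (y + t) := by
    rw [Finset.mul_sum]
    refine Finset.sum_congr rfl fun y _ => by ring
  rw [e2, Finset.sum_eq_single (0 : ZMod (2 ^ (m + 1)))] at e1
  · simp only [map_zero, if_true] at e1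
    by_cases ht : t = 0
    · rw [if_pos ht.symm] at e1
      rw [if_pos ht]
      linarith
    · rw [if_neg (fun h => ht h.symm)] at e1
      rw [if_neg ht]
      linarith
  · intro b _ hb
    simp [hb]
  · simp

/-- the descent -/
theorem turyn_descent (w : ℤ) (hw : Odd w) (s : ℕ) : ∀ m : ℕ, s + 3 ≤ m →
    ∀ A : ZMod (2 ^ m) → ℤ, (∀ x, Odd (A x)) →
    ¬ (∀ t, ∑ x, A x * A (x + t) = if t = 0 then 4 ^ (s + 1) * w else 0) := by
  induction s with
  | zero =>
    intro m hm A hodd hac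
    have h0 := hac 0
    simp only [add_zero, if_true, zero_add, pow_one] at h0
    have h1 : (8 : ℤ) ∣ ∑ x, A x * A x - ∑ x : ZMod (2 ^ m), (1 : ℤ) := by
      rw [← Finset.sum_sub_distrib]
      refine Finset.dvd_sum fun x _ => ?_
      obtain ⟨k, hk⟩ := hodd x
      rw [hk]
      have h2 : (2 * k + 1) * (2 * k + 1) - 1 = 4 * (k * (k + 1)) := by ring
      rw [h2]
      obtain ⟨j, hj⟩ := Int.even_mul_succ_self k
      exact ⟨j, by rw [hj]; ring⟩
    rw [h0] at h1
    simp only [Finset.sum_const, Finset.card_univ, ZMod.card] at h1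
    have h8 : (8 : ℤ) ∣ 2 ^ m := by
      obtain ⟨k, hk⟩ := Nat.exists_eq_add_of_le hm
      exact ⟨2 ^ k, by rw [hk]; ring⟩
    obtain ⟨k, hk⟩ := hw
    rw [nsmul_eq_mul, mul_one] at h1
    push_cast at h1
    omega
  | succ s ih =>
    intro m hm A hodd hac
    obtain ⟨m, rfl⟩ : ∃ m', m = m' + 1 := ⟨m - 1, by omega⟩
    obtain ⟨B, hBodd, hB⟩ := turyn_step m (by omega) (4 ^ s * w) A hodd (by
      intro t
      rw [hac t]
      congr 1
      ring)
    refine ih m (by omega) B hBodd (fun t => ?_)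
    rw [hB t]
    congr 1
    ring

theorem not_even {n v : ℕ} [NeZero n] (hn : n = 4 * v ^ 2) (hv : Even v) (h : ZMod n → ℤ)
    (h1 : ∀ i, h i = 1 ∨ h i = -1)
    (hac : ∀ t : ZMod n, t ≠ 0 → ∑ j, h j * h (j + t) = 0) : False := by
  have hn0 : n ≠ 0 := NeZero.ne n
  have hv0 : v ≠ 0 := by rintro rfl; simp at hn; exact hn0 hn
  obtain ⟨b, w, hwodd, hvw⟩ := Nat.exists_eq_two_pow_mul_odd hv0
  have hb : 1 ≤ b := by
    rcases Nat.eq_zero_or_pos b with hb | hb
    · subst hb
      rw [pow_zero, one_mul] at hvw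
      rw [hvw] at hv
      exact absurd hwodd (Nat.not_odd_iff_even.mpr hv)
    · exact hb
  have hn2 : n = 2 ^ (2 * b + 2) * w ^ 2 := by rw [hn, hvw]; ring
  have hn3 : (n : ℤ) = 2 ^ (2 * b + 2) * (w : ℤ) ^ 2 := by exact_mod_cast hn2
  have hdvd : 2 ^ (2 * b + 2) ∣ n := ⟨w ^ 2, hn2⟩
  obtain ⟨π, hπ⟩ : ∃ π : ZMod n →+* ZMod (2 ^ (2 * b + 2)),
    π = ZMod.castHom hdvd (ZMod (2 ^ (2 * b + 2))) := ⟨_, rfl⟩
  have hfib : ∀ y : ZMod (2 ^ (2 * b + 2)),
      (∑ x, if π.toAddMonoidHom x = y then (1 : ℤ) else 0) =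
      ∑ x, if π.toAddMonoidHom x = 0 then (1 : ℤ) else 0 := by
    intro y
    obtain ⟨x0, hx0⟩ := ZMod.ringHom_surjective π y
    rw [← Equiv.sum_comp (Equiv.addLeft x0)]
    refine Finset.sum_congr rfl fun x _ => ?_
    have : π.toAddMonoidHom x0 = y := hx0
    simp only [Equiv.coe_addLeft, map_add, this, add_eq_left]
  have hcount : ∀ y : ZMod (2 ^ (2 * b + 2)),
      (∑ x, if π.toAddMonoidHom x = y then (1 : ℤ) else 0) = (w : ℤ) ^ 2 := by
    intro y
    have e1 : ∑ y : ZMod (2 ^ (2 * b + 2)),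
        (∑ x, if π.toAddMonoidHom x = y then (1 : ℤ) else 0) = n := by
      rw [Finset.sum_comm]
      simp [ZMod.card]
    rw [Finset.sum_congr rfl fun y _ => hfib y] at e1
    rw [hfib y]
    simp only [Finset.sum_const, Finset.card_univ, ZMod.card] at e1
    rw [nsmul_eq_mul, hn3] at e1
    push_cast at e1
    exact mul_left_cancel₀ (by positivity) e1
  refine turyn_descent ((w : ℤ) ^ 2) ?_ b (2 * b + 2) (by omega)
    (fun y => ∑ x, if π.toAddMonoidHom x = y then h x else 0) ?_ ?_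
  · exact Odd.pow (by exact_mod_cast hwodd)
  · intro y
    have e1 : (2 : ℤ) ∣ (∑ x, if π.toAddMonoidHom x = y then h x else 0) -
        (∑ x, if π.toAddMonoidHom x = y then (1 : ℤ) else 0) := by
      rw [← Finset.sum_sub_distrib]
      refine Finset.dvd_sum fun x _ => ?_
      split_ifs
      · rcases h1 x with hx | hx <;> simp [hx]
      · simp
    rw [hcount y] at e1
    have e2 : Odd ((w : ℤ) ^ 2) := Odd.pow (by exact_mod_cast hwodd)
    obtain ⟨k, hk⟩ := e2
    obtain ⟨l, hl⟩ := e1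
    exact ⟨l + k, by rw [hk] at hl; linear_combination hl⟩
  · intro t
    have e1 := turyn_proj π.toAddMonoidHom h t
    rw [e1, Finset.sum_eq_single (0 : ZMod n)]
    · have e0 : ∑ x, h x * h (x + 0) = (n : ℤ) := by
        have : ∀ x : ZMod n, h x * h (x + 0) = 1 := by
          intro x
          rcases h1 x with hx | hx <;> simp [hx]
        rw [Finset.sum_congr rfl fun x _ => this x]
        simp [ZMod.card]
      rw [map_zero, e0]
      by_cases ht : t = 0
      · rw [if_pos ht.symm, if_pos ht, hn3]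
        rw [show (4 : ℤ) = 2 ^ 2 by norm_num, ← pow_mul]
        congr 2
      · rw [if_neg (fun h => ht h.symm), if_neg ht]
    · intro t' _ ht'
      rw [hac t' ht']
      simp
    · simp

end Vale.Agent.P033.CH
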