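import Vale.Agent.P033.CH.Coeff

/-!
# The two-adic part
-/

namespace Vale.Agent.P033.CH

open Finset

variable {M : ℕ}

/-- `J n x = ∑_{j<n} [j x]`. -/
noncomputable def J (n : ℕ) (x : ZMod M) : Lam M := ∑ j ∈ range n, gr ((j : ZMod M) * x)

theorem exists_K_eq {n : ℕ} (h : ZMod n → ℤ) (h1 : ∀ i, h i = 1 ∨ h i = -1) :
    ∃ b : ZMod M → Lam M, ∀ x, K h x = J n x + 2 * b x := by
  have hb : ∀ i, ∃ c : ℤ, h i = 1 + 2 * c := by
    intro i
    rcases h1 i with e | e
    · exact ⟨0, by rw [e]; norm_num⟩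
    · exact ⟨-1, by rw [e]; norm_num⟩
  choose c hc using hb
  refine ⟨fun x => ∑ j ∈ range n, ((c (j : ZMod n) : ℤ) : Lam M) * gr ((j : ZMod M) * x), ?_⟩
  intro x
  unfold K HP J
  rw [map_sum, Finset.mul_sum, ← Finset.sum_add_distrib]
  refine Finset.sum_congr rfl ?_
  intro j _
  simp only [map_mul, Polynomial.aeval_C, map_pow, Polynomial.aeval_X]
  rw [gr_pow, hc (j : ZMod n)]
  simp only [eq_intCast, Int.cast_add, Int.cast_mul, Int.cast_one, Int.cast_ofNat]
  ring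

theorem J_gr {n : ℕ} {x : ZMod M} (hx : (n : ZMod M) * x = 0) (m : ℕ) :
    J n x * gr ((m : ZMod M) * x) = J n x := by
  rw [mul_comm]; exact gr_mul_mul_sum hx m

theorem J_gr' [NeZero M] {n : ℕ} {x : ZMod M} (hx : (n : ZMod M) * x = 0) (m : ZMod M) :
    J n x * gr (m * x) = J n x := by
  have := J_gr hx m.val
  rwa [ZMod.natCast_zmod_val] at this

/-- The condition `(1 - e_p) x = ± (1 - e_p)`. -/
def Gp (e : ℕ → ZMod M) (p : ℕ) (x : ZMod M) : Prop :=
  (1 - e p) * x = 1 - e p ∨ (1 - e p) * x = -(1 - e p)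

theorem J_mul_Np [NeZero M] {n : ℕ} {e : ℕ → ZMod M} {p : ℕ} {x : ZMod M}
    (hx : (n : ZMod M) * x = 0) (hG : Gp e p x) : J n x * Np e p = (p : Lam M) * J n x := by
  unfold Np
  rw [Finset.mul_sum]
  have : ∀ i ∈ range p, J n x * gr ((i : ZMod M) * (1 - e p)) = J n x := by
    intro i _
    rcases hG with h | h
    · have := J_gr' hx ((i : ZMod M) * (1 - e p))
      rwa [mul_assoc, h] at this
    · have := J_gr' hx (-((i : ZMod M) * (1 - e p)))
      rwa [neg_mul, mul_assoc, h, mul_neg, neg_neg] at this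
  rw [Finset.sum_congr rfl this]
  simp

theorem J_mul_Phi [NeZero M] {n : ℕ} {e : ℕ → ZMod M} {P : Finset ℕ} {p : ℕ} (hp : p ∈ P)
    {x : ZMod M} (hx : (n : ZMod M) * x = 0) (hG : Gp e p x) : J n x * Phi e P = 0 := by
  classical
  unfold Phi
  rw [← Finset.mul_prod_erase P _ hp, ← mul_assoc, mul_sub, J_mul_Np hx hG]
  ring

theorem Gp_neg_mul {P : Finset ℕ} {e : ℕ → ZMod M} (hI : Idem M P e) {p q : ℕ} (hp : p ∈ P)
    (hq : q ∈ P) (hpq : p ≠ q) {x : ZMod M} (hG : Gp e p x) : Gp e p (-(e q * x)) := by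
  have h1 : (1 - e p) * -(e q * x) = -((1 - e p) * x) := by
    linear_combination (-x) * hI.cross p hp q hq hpq
  unfold Gp at hG ⊢
  rw [h1]
  rcases hG with h | h
  · right; rw [h]
  · left; rw [h]; ring

section main

variable [NeZero M] {P : Finset ℕ} {e : ℕ → ZMod M} {K' : ZMod M → Lam M} {n : ℕ}
  {b : ZMod M → Lam M}

theorem EL_C (hI : Idem M P e) (hn : (n : ZMod M) = 0) (hK : ∀ x, K' x = J n x + 2 * b x)
    {p : ℕ} (hp : p ∈ P) (L : List ℕ) (hL : ∀ q ∈ L, q ∈ P) (hpL : p ∉ L) (x : ZMod M)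
    (hG : Gp e p x) :
    ∃ Y : Lam M, EL K' e L x * Phi e P = 2 ^ (2 ^ L.length) * Y * Phi e P := by
  induction L generalizing x with
  | nil =>
    refine ⟨b x, ?_⟩
    simp only [EL, List.length_nil, pow_zero, pow_one]
    rw [hK x, add_mul, J_mul_Phi hp (by rw [hn, zero_mul]) hG, zero_add]
  | cons q L ih =>
    have hq : q ∈ P := hL q List.mem_cons_self
    have hpq : p ≠ q := fun h => hpL (by rw [h]; exact List.mem_cons_self)
    have hL' : ∀ r ∈ L, r ∈ P := fun r hr => hL r (List.mem_cons_of_mem _ hr)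
    have hpL' : p ∉ L := fun h => hpL (List.mem_cons_of_mem _ h)
    obtain ⟨Y, hY⟩ := ih hL' hpL' x hG
    obtain ⟨Z, hZ⟩ := ih hL' hpL' (-(e q * x)) (Gp_neg_mul hI hp hq hpq hG)
    refine ⟨Y * Z, ?_⟩
    simp only [EL, List.length_cons]
    rw [mul_assoc, hZ, pow_succ 2, mul_comm _ 2, two_mul, pow_add]
    calc EL K' e L x * (2 ^ 2 ^ L.length * Z * Phi e P)
        = (EL K' e L x * Phi e P) * (2 ^ 2 ^ L.length * Z) := by ring
      _ = _ := by rw [hY]; ring

theorem EL_D (hI : Idem M P e) (hn : (n : ZMod M) = 0) (hK : ∀ x, K' x = J n x + 2 * b x)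
    (L : List ℕ) (hL : ∀ q ∈ L, q ∈ P) (hnd : L.Nodup) (x : ZMod M)
    (hG : ∀ p ∈ L, Gp e p x) :
    ∃ Y : Lam M, ∃ s : ZMod M, (s = 1 ∨ s = -1) ∧
      EL K' e L x * Phi e P
        = 2 ^ (2 ^ L.length - 1) * Y * K' (s * ((L.map e).prod * x)) * Phi e P := by
  induction L generalizing x with
  | nil =>
    refine ⟨1, 1, Or.inl rfl, ?_⟩
    simp [EL]
  | cons q L ih =>
    have hq : q ∈ P := hL q List.mem_cons_self
    have hL' : ∀ r ∈ L, r ∈ P := fun r hr => hL r (List.mem_cons_of_mem _ hr)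
    rw [List.nodup_cons] at hnd
    obtain ⟨Y, hY⟩ := EL_C (K' := K') hI hn hK hq L hL' hnd.1 x (hG q List.mem_cons_self)
    obtain ⟨Z, s, hs, hZ⟩ := ih hL' hnd.2 (-(e q * x)) (by
      intro p hp
      refine Gp_neg_mul hI (hL' p hp) hq ?_ (hG p (List.mem_cons_of_mem _ hp))
      intro h; exact hnd.1 (h ▸ hp))
    refine ⟨Y * Z, -s, ?_, ?_⟩
    · rcases hs with h | h
      · right; rw [h]
      · left; rw [h]; ring
    · simp only [EL, List.length_cons, List.map_cons, List.prod_cons]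
      rw [show -s * (e q * (L.map e).prod * x) = s * ((L.map e).prod * -(e q * x)) by ring]
      have h2 : 2 ^ (L.length + 1) - 1 = 2 ^ L.length + (2 ^ L.length - 1) := by
        have : 0 < 2 ^ L.length := by positivity
        rw [pow_succ]; omega
      rw [h2, pow_add, mul_assoc (EL K' e L x), hZ]
      calc EL K' e L x * (2 ^ (2 ^ L.length - 1) * Z * K' (s * ((L.map e).prod * -(e q * x))) * Phi e P)
          = (EL K' e L x * Phi e P) * (2 ^ (2 ^ L.length - 1) * Z *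
              K' (s * ((L.map e).prod * -(e q * x)))) := by ring
        _ = _ := by rw [hY]; ring

end main

end Vale.Agent.P033.CH
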